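import Vale.Agent.P257.Q.PDefs

/-! `b_(1,0)` is a cocycle of `P`. -/

namespace Vale.Agent.P257L

open MvPolynomial Finset Vale.Agent.P257.Q

section

variable {S : Type*} [CommRing S]

/-- `((x + y) ^ p - x ^ p - y ^ p) / p`. -/
def bb (p : ℕ) (x y : S) : S := ∑ i ∈ Ioo 0 p, ((p.choose i / p : ℕ) : S) * x ^ i * y ^ (p - i)

theorem map_bb {T : Type*} [CommRing T] (f : S →+* T) (p : ℕ) (x y : S) :
    f (bb p x y) = bb p (f x) (f y) := by
  simp only [bb, map_sum, map_mul, map_natCast, map_pow]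

theorem p_mul_bb {p : ℕ} (hp : p.Prime) (x y : S) :
    (p : S) * bb p x y = (x + y) ^ p - x ^ p - y ^ p := by
  have h1 : (x + y) ^ p = ∑ i ∈ range (p + 1), x ^ i * y ^ (p - i) * (p.choose i : S) :=
    add_pow x y p
  rw [Finset.sum_range_succ, Nat.sub_self, pow_zero, Nat.choose_self, Nat.cast_one] at h1
  have h2 : range p = insert 0 (Ioo 0 p) := by
    ext i
    simp only [Finset.mem_range, Finset.mem_insert, Finset.mem_Ioo]
    have := hp.pos
    omega
  rw [h2, Finset.sum_insert (by simp), pow_zero, Nat.choose_zero_right, Nat.sub_zero] at h1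
  rw [h1, bb, Finset.mul_sum]
  have h3 : ∀ i ∈ Ioo 0 p, (p : S) * (((p.choose i / p : ℕ) : S) * x ^ i * y ^ (p - i)) =
      x ^ i * y ^ (p - i) * (p.choose i : S) := by
    intro i hi
    rw [Finset.mem_Ioo] at hi
    have h4 : p * (p.choose i / p) = p.choose i :=
      Nat.mul_div_cancel' (hp.dvd_choose_self (by omega) hi.2)
    have h5 : (p.choose i : S) = (p : S) * ((p.choose i / p : ℕ) : S) := by
      rw [← Nat.cast_mul, h4]
    rw [h5]
    ring
  rw [Finset.sum_congr rfl h3]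
  push_cast
  ring

theorem bb_cocycle {p : ℕ} (hp : p.Prime) (x y z : S) :
    bb p y z - bb p (x + y) z + bb p x (y + z) - bb p x y = 0 := by
  have key : bb p (X 1 : MvPolynomial (Fin 3) ℤ) (X 2) - bb p (X 0 + X 1) (X 2) +
      bb p (X 0) (X 1 + X 2) - bb p (X 0) (X 1) = 0 := by
    have h1 : ((p : ℤ) : MvPolynomial (Fin 3) ℤ) ≠ 0 := by
      exact_mod_cast hp.ne_zero
    apply mul_left_cancel₀ h1
    push_cast
    rw [mul_zero, mul_sub, mul_add, mul_sub, p_mul_bb hp, p_mul_bb hp, p_mul_bb hp, p_mul_bb hp]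
    ring
  have h2 := congrArg (eval₂Hom (Int.castRingHom S) ![x, y, z]) key
  simp only [map_sub, map_add, map_bb, eval₂Hom_X', map_zero] at h2
  simpa using h2

end

theorem b10_eq (p : ℕ) : PC.b10 p = bb p (X (0, 0)) (X (1, 0)) := rfl

theorem cob_b10 {p : ℕ} (hp : p.Prime) : PC.cob p 2 (PC.b10 p) = 0 := by
  have h1 : PC.sh p (PC.b10 p) = bb p (X (1, 0)) (X (2, 0)) := by
    rw [b10_eq]
    exact (map_bb (PC.sh p : PC.KP p →+* PC.KP p) p _ _).trans (by simp [PC.sh])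
  have h2 : PC.δ p 0 (PC.b10 p) = bb p (X (0, 0) + X (1, 0)) (X (2, 0)) := by
    rw [b10_eq]
    refine (map_bb (PC.δ p 0 : PC.KP p →+* PC.KP p) p _ _).trans ?_
    simp [PC.δ, Finset.sum_range_succ, PC.tt, add_comm]
  have h3 : PC.δ p 1 (PC.b10 p) = bb p (X (0, 0)) (X (1, 0) + X (2, 0)) := by
    rw [b10_eq]
    refine (map_bb (PC.δ p 1 : PC.KP p →+* PC.KP p) p _ _).trans ?_
    simp [PC.δ, Finset.sum_range_succ, PC.tt, add_comm]
  have h4 := bb_cocycle hp (X (0, 0) : PC.KP p) (X (1, 0)) (X (2, 0))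
  have e3 : (-1 : ZMod p) ^ (2 + 1) = -1 := by ring
  have e1 : (-1 : ZMod p) ^ (0 + 1) = -1 := by ring
  have e2 : (-1 : ZMod p) ^ (1 + 1) = 1 := by ring
  simp only [PC.cob, LinearMap.add_apply, LinearMap.smul_apply,
    Finset.sum_range_succ, Finset.sum_range_zero, AlgHom.toLinearMap_apply, LinearMap.id_apply,
    LinearMap.zero_apply]
  rw [h1, h2, h3, b10_eq, e1, e2, e3, neg_smul, neg_smul, one_smul, one_smul, one_smul]
  refine Eq.trans ?_ h4
  ring

end Vale.Agent.P257L
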