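import Vale.Agent.P257.L.Lift
import Vale.Agent.P257.L.B10

/-! `PFacts p` implies `LFacts D x`. -/

set_option linter.unusedSectionVars false

namespace Vale.Agent.P257L

open MvPolynomial TensorProduct Finset Vale.Agent.P257.Q Vale.Agent.P257.S

variable {p : ℕ} [hp : Fact p.Prime] {R : Type} [CommRing R] {B : BPBP p (MvPolynomial ℕ R)}
  {M : ModuleCat.{0} (MvPolynomial ℕ R)} {D : Comod B M} {x : M}
  {r : R →+* ZMod p} {ρ : W (MvPolynomial ℕ R) →+* GG p} {σ : GG p →+* GG p}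
  {d : ℕ → GG p →+* GG p}

theorem wt_three (p : ℕ) : PC.wt p 3 = PC.ee p := by
  unfold PC.wt PC.ee
  simp [Finset.sum_range_succ]

theorem wv_three {p : ℕ} {α : ℕ →₀ ℕ} (hα : α ≠ 0) : PC.ee p ≤ wv p 3 α := by
  obtain ⟨i, hi⟩ := Finsupp.support_nonempty_iff.2 hα
  have h1 := wt_le_wv (p := p) (n := 3) hi
  have h2 : PC.wt p 3 ≤ PC.wt p (i + 3) := by
    unfold PC.wt
    exact Finset.sum_le_sum_of_subset (Finset.range_subset_range.2 (by omega))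
  rw [wt_three] at h2
  omega

theorem hvan_of_vanish (hP : PC.PFacts p) {s N : ℕ} (h : 2 * (N - PC.ee p) + p < p * s) :
    ∀ α ≠ 0, wv p 3 α ≤ N → PC.Van p s (N - wv p 3 α) := by
  intro α hα hN
  have h1 := wv_three (p := p) hα
  refine hP.vanish _ _ ?_
  omega

theorem hvan_of_lt {s N : ℕ} (h : N < PC.ee p) :
    ∀ α ≠ 0, wv p 3 α ≤ N → PC.Van p s (N - wv p 3 α) := by
  intro α hα hN
  have h1 := wv_three (p := p) hα
  omega

namespace Lift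

variable (L : Lift p 3 D x r ρ σ d)

include L

theorem vanL3 {s N : ℕ} (h : PC.Van p (s + 1) N)
    (hvan : ∀ α ≠ 0, wv p 3 α ≤ N → PC.Van p (s + 1) (N - wv p 3 α)) :
    VanL D (s + 1) (qd p N) := by
  refine L.vanL fun α hα => ?_
  by_cases h0 : α = 0
  · rw [h0, wv_zero]
    exact h
  · exact hvan α h0 hα

omit L in
theorem pow_mem_Ch {s N : ℕ} {k : PC.KP p} (hk : k ∈ PC.Ch p s N) (a : ℕ) :
    k ^ a ∈ PC.Ch p s (a * N) := by
  induction a with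
  | zero => simpa using one_mem_Ch s
  | succ a ih =>
    rw [pow_succ, Nat.succ_mul]
    exact mul_mem_Ch ih hk

omit L in
theorem X_mem_Ch {s : ℕ} {j : ℕ × ℕ} (hj : j.1 < s) :
    (X j : PC.KP p) ∈ PC.Ch p s (PC.wt p j.2) := by
  refine Submodule.subset_span ⟨Finsupp.single j 1, fun i hi => ?_, by simp, rfl⟩
  have := Finsupp.support_single_subset hi
  rw [Finset.mem_singleton] at this
  rw [this]
  exact hj

omit L in
theorem wt_zero (p : ℕ) : PC.wt p 0 = 1 := by simp [PC.wt]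

theorem F0 : IsCocycle D 2 (qd p p) (b₁ p (MvPolynomial ℕ R) ⊗ₜ[MvPolynomial ℕ R] x) := by
  rw [L.cocycle_iff, L.ρ_b₁]
  have h1 : PC.b10 p ∈ PC.Ch p 2 p := by
    unfold PC.b10
    refine sum_mem fun i hi => ?_
    rw [Finset.mem_Ioo] at hi
    rw [mul_assoc, ← nsmul_eq_mul]
    refine nsmul_mem ?_ _
    have h2 : (X (0, 0) : PC.KP p) ∈ PC.Ch p 2 (PC.wt p 0) := X_mem_Ch (j := (0, 0)) (by simp)
    have h3 : (X (1, 0) : PC.KP p) ∈ PC.Ch p 2 (PC.wt p 0) := X_mem_Ch (j := (1, 0)) (by simp)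
    have h4 := mul_mem_Ch (pow_mem_Ch h2 i) (pow_mem_Ch h3 (p - i))
    rwa [wt_zero, mul_one, mul_one, Nat.add_sub_cancel' hi.2.le] at h4
  have h5 : (C (PC.b10 p) : GG p) ∈ GC p 3 2 p := C_mem_GC h1
  refine ⟨h5, ?_⟩
  have h6 := (L.hdd 2 p _ h5).1
  ext1 α
  rw [coeff_zero]
  by_contra hne
  by_cases h0 : α = 0
  · apply hne
    rw [h0, coeff_zero_cob L.hF 2 p h5, coeff_zero_C, cob_b10 hp.out]
  · have h7 := (h6 α hne).1
    have h8 := wv_three (p := p) h0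
    have h9 : p < PC.ee p := by
      unfold PC.ee
      have := pow_pos hp.out.pos 2
      omega
    omega

theorem ρ_v4 : ρ (C (B.v 4)) = X 0 := L.hρ.v 0

theorem ρ_v5 : ρ (C (B.v 5)) = X 1 := L.hρ.v 1

/-- The evaluation used for the right unit. -/
theorem ρ_ev_I4 {f : MvPolynomial ℕ (MvPolynomial ℕ R)}
    (hf : f ∈ Vale.Agent.P257.Q.Eta.I4 B ℕ) :
    ρ (eval₂Hom (C : MvPolynomial ℕ R →+* W (MvPolynomial ℕ R)) (fun n => X (0, n)) f) = 0 := by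
  have h1 : Vale.Agent.P257.Q.Eta.I4 B ℕ ≤ RingHom.ker (ρ.comp
      (eval₂Hom (C : MvPolynomial ℕ R →+* W (MvPolynomial ℕ R)) (fun n => X (0, n)))) := by
    unfold Vale.Agent.P257.Q.Eta.I4
    rw [Ideal.span_le]
    rintro _ ⟨i, hi, rfl⟩
    change ρ (eval₂Hom (C : MvPolynomial ℕ R →+* W (MvPolynomial ℕ R)) (fun n => X (0, n))
      (C (B.v i))) = 0
    rw [coe_eval₂Hom, eval₂_C]
    exact L.hρ.low i hi
  exact h1 hf

theorem σ_eq (a : MvPolynomial ℕ R) : σ (ρ (C a)) =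
    ρ (eval₂Hom (C : MvPolynomial ℕ R →+* W (MvPolynomial ℕ R)) (fun n => X (0, n)) (B.η a)) := by
  rw [← L.hc.σ]
  simp only [shift, coe_eval₂Hom, eval₂_C]
  rfl

theorem σ_X0 : σ (X 0) = X 0 := by
  have h1 := L.ρ_ev_I4 (Vale.Agent.P257.Q.Eta.eta_v_four L.hB L.hR.reg)
  rw [map_sub, map_sub, ← L.σ_eq, L.ρ_v4, coe_eval₂Hom, eval₂_C, L.ρ_v4, sub_eq_zero] at h1
  exact h1

theorem σ_X1 : σ (X 1) = X 1 + X 0 * C (X (0, 0)) ^ p ^ 4 - X 0 ^ p * C (X (0, 0)) := by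
  have h1 := L.ρ_ev_I4 (Vale.Agent.P257.Q.Eta.eta_v_five L.hB L.hR.reg)
  rw [map_sub, map_sub, ← L.σ_eq, L.ρ_v5, sub_eq_zero] at h1
  rw [h1]
  simp only [map_sub, map_add, map_mul, map_pow, coe_eval₂Hom, eval₂_C, eval₂_X, L.ρ_v4, L.ρ_v5,
    L.hρ.t]

theorem F0' : IsCocycle D 0 (qd p (PC.ee p))
    ((C (B.v 4) : W (MvPolynomial ℕ R)) ⊗ₜ[MvPolynomial ℕ R] x) := by
  rw [L.cocycle_iff, L.ρ_v4]
  refine ⟨?_, ?_⟩
  · have := X_mem_GC (p := p) (n := 3) 0 0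
    rwa [zero_add, wt_three] at this
  · rw [cobG_apply, L.σ_X0]
    simp

theorem cobG_X0_mul (s : ℕ) (g : GG p) : cobG σ d s (X 0 * g) = X 0 * cobG σ d s g := by
  rw [cobG_apply, cobG_apply, map_mul, L.σ_X0, mul_add, mul_add, Finset.mul_sum, mul_smul_comm]
  congr 2
  refine Finset.sum_congr rfl fun i _ => ?_
  rw [map_mul, L.hF.d1, mul_smul_comm]

theorem ρ_hh4 : ρ (hh4 B) = C (X (0, 0)) ^ p ^ 4 - X 0 ^ (p - 1) * C (X (0, 0)) := by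
  rw [hh4, map_sub, map_mul, map_pow, map_pow, L.hρ.t, L.ρ_v4]

theorem X0_mul_hh4 : X 0 * ρ (hh4 B) = cobG σ d 0 (X 1) := by
  rw [cobG_apply, L.σ_X1, L.ρ_hh4]
  have h1 : (X 0 : GG p) ^ p = X 0 * X 0 ^ (p - 1) := by
    rw [← pow_succ', Nat.sub_add_cancel hp.out.one_lt.le]
  rw [h1]
  simp
  ring

omit L in
theorem ee_mul : (p - 1) * PC.ee p + 1 = p ^ 4 := by
  obtain ⟨m, hm⟩ := Nat.exists_eq_add_of_le hp.out.one_lt.le
  unfold PC.ee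
  rw [hm, Nat.add_sub_cancel_left]
  ring

theorem F1 : IsCocycle D 1 (qd p (p ^ 4)) (hh4 B ⊗ₜ[MvPolynomial ℕ R] x) := by
  rw [L.cocycle_iff]
  have h1 : (C (X (0, 0)) : GG p) ∈ GC p 3 1 1 := C_mem_GC (by
    have := X_mem_Ch (p := p) (s := 1) (j := (0, 0)) (by simp)
    rwa [wt_zero] at this)
  refine ⟨?_, ?_⟩
  · rw [L.ρ_hh4]
    refine sub_mem ?_ ?_
    · have := pow_mem_GC h1 (p ^ 4)
      rwa [mul_one] at this
    · have h2 := X_mem_GC (p := p) (n := 3) 1 0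
      rw [zero_add, wt_three] at h2
      have h3 := mul_mem_GC (pow_mem_GC h2 (p - 1)) h1
      rwa [ee_mul] at h3
  · have h2 : (X 1 : GG p) ∈ GC p 3 0 (PC.wt p (1 + 3)) := X_mem_GC 0 1
    have h3 := (L.hdd _ _ _ h2).2
    rw [← L.X0_mul_hh4, L.cobG_X0_mul] at h3
    exact (mul_eq_zero.1 h3).resolve_left (X_ne_zero 0)

omit L in
theorem wt_four (p : ℕ) : PC.wt p 4 = PC.ee p + p ^ 4 := by
  unfold PC.wt PC.ee
  simp [Finset.sum_range_succ]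

theorem F1' : IsCobdry D 1 (qd p (PC.ee p + p ^ 4))
    ((hh4 B * shift B (C (B.v 4))) ⊗ₜ[MvPolynomial ℕ R] x) := by
  have h2 : (X 1 : GG p) ∈ GC p 3 0 (PC.wt p (1 + 3)) := X_mem_GC 0 1
  rw [show 1 + 3 = 4 from rfl, wt_four] at h2
  refine (L.cobdry_iff (s := 0) _).2 ⟨X 1, h2, ?_⟩
  rw [map_mul, L.hc.σ, L.ρ_v4, L.σ_X0, mul_comm, L.X0_mul_hh4]

theorem ρ_shift_iter (k : ℕ) : ρ ((shift B)^[k] (C (B.v 4))) = X 0 := by
  induction k with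
  | zero => exact L.ρ_v4
  | succ k ih => rw [Function.iterate_succ_apply', L.hc.σ, ih, L.σ_X0]

theorem F2 (hP : PC.PFacts p) (z y : W (MvPolynomial ℕ R))
    (hz : IsCocycle D (2 * (p - 1) + 1) (qd p (PC.ee p + 1)) (z ⊗ₜ[MvPolynomial ℕ R] x))
    (hzy : IsCobdry D (2 * (p - 1) + 2) (qd p (PC.ee p + 1 + p ^ 4))
      ((hh4 B * shift B z + y * (shift B)^[2 * (p - 1) + 2] (C (B.v 4))) ⊗ₜ[MvPolynomial ℕ R] x)) :
    IsCobdry D (2 * (p - 1) + 1) (qd p (PC.ee p + 1)) (z ⊗ₜ[MvPolynomial ℕ R] x) := by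
  have hp2 := hp.out.two_le
  refine L.cobdry_of_coeff (hvan_of_vanish hP ?_) hz ?_
  · rw [Nat.add_sub_cancel_left]
    have : 2 * 2 ≤ p * (2 * (p - 1)) := Nat.mul_le_mul hp2 (by omega)
    rw [mul_add, mul_one]
    omega
  · have h1 := L.coeff_cobdry (s := 2 * (p - 1) + 1) hzy
    have h2 := L.coeff_cocycle hz
    have e1 : coeff 0 (ρ (hh4 B * shift B z + y * (shift B)^[2 * (p - 1) + 2] (C (B.v 4)))) =
        X (0, 0) ^ p ^ 4 * PC.sh p (coeff 0 (ρ z)) := by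
      have hp1 : p - 1 ≠ 0 := by omega
      rw [map_add, map_mul, map_mul, L.ρ_shift_iter, L.ρ_hh4, L.hc.σ, ← constantCoeff_eq]
      rw [map_add, map_mul, map_mul, map_sub, map_mul, map_pow, map_pow, constantCoeff_C,
        constantCoeff_X, zero_pow hp1, zero_mul, sub_zero, mul_zero, add_zero, constantCoeff_eq,
        L.coeff_σ]
    rw [e1] at h1
    have e2 : 2 * (p - 1) + 1 = 2 * p - 1 := by omega
    have e3 : 2 * (p - 1) + 1 + 1 = 2 * p := by omega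
    rw [e3] at h1
    rw [e2] at h2 ⊢
    exact hP.G2 _ h2 h1

omit L in
theorem num_le (hp5 : 5 ≤ p) (k : ℕ) : 40 * k ≤ p * (k * (2 * (p - 1))) := by
  have h1 : 8 ≤ 2 * (p - 1) := by omega
  calc 40 * k = 5 * (k * 8) := by ring
    _ ≤ p * (k * (2 * (p - 1))) := Nat.mul_le_mul hp5 (Nat.mul_le_mul_left k h1)

omit L in
theorem num_le' (hp5 : 5 ≤ p) {k : ℕ} (hk : 1 ≤ k) : 8 * p ≤ p * (k * (2 * (p - 1))) := by
  have h1 : 8 ≤ 2 * (p - 1) := by omega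
  calc 8 * p = p * (1 * 8) := by ring
    _ ≤ p * (k * (2 * (p - 1))) := Nat.mul_le_mul_left p (Nat.mul_le_mul hk h1)

omit L in
theorem lt_ee (hp5 : 5 ≤ p) {k : ℕ} (hk : k ≤ p) : 2 + 4 * p + 2 * p ^ 2 + k < PC.ee p := by
  unfold PC.ee
  have h1 : 5 * p ≤ p ^ 2 := by rw [pow_two]; exact Nat.mul_le_mul_right p hp5
  have h2 : 5 * p ^ 2 ≤ p ^ 3 := by rw [pow_succ p 2, mul_comm]; exact Nat.mul_le_mul_left _ hp5
  omega

theorem F3 (hP : PC.PFacts p) (hp5 : 5 ≤ p) (k : ℕ) (hk : 2 ≤ k) (hkp : k ≠ p) :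
    VanL D (k * (2 * (p - 1)) + 1) (qd p (PC.ee p + k)) := by
  refine L.vanL3 (hP.G3 k hk hkp) (hvan_of_vanish hP ?_)
  have := num_le hp5 k
  rw [Nat.add_sub_cancel_left, mul_add, mul_one]
  omega

theorem F4' (hP : PC.PFacts p) (hp5 : 5 ≤ p) : VanL D 6 (qd p (2 + 4 * p + 2 * p ^ 2)) :=
  L.vanL3 (s := 5) hP.G4' (hvan_of_lt (by have := lt_ee hp5 (Nat.zero_le p); omega))

theorem F5 (hP : PC.PFacts p) (hp5 : 5 ≤ p) (k : ℕ) (hk : 1 ≤ k) (hkp : k ≤ p - 1) :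
    VanL D (k * (2 * (p - 1)) + 6) (qd p (1 + 4 * p + 2 * p ^ 2 + k)) :=
  L.vanL3 (s := k * (2 * (p - 1)) + 5) (hP.G5 k hk hkp)
    (hvan_of_lt (by have := lt_ee hp5 (show k ≤ p by omega); omega))

theorem F6 (hP : PC.PFacts p) (hp5 : 5 ≤ p) (j : ℕ) (hj : 3 ≤ j) (hjp : j ≤ p - 1) :
    VanL D (j * (2 * (p - 1)) + 6) (qd p (PC.ee p + 3 * p + j)) := by
  refine L.vanL3 (s := j * (2 * (p - 1)) + 5) (hP.G6 j hj hjp) (hvan_of_vanish hP ?_)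
  have h1 := num_le hp5 j
  have h2 := num_le' hp5 (show 1 ≤ j by omega)
  rw [show PC.ee p + 3 * p + j - PC.ee p = 3 * p + j by omega,
    show j * (2 * (p - 1)) + 5 + 1 = j * (2 * (p - 1)) + 6 from rfl, mul_add p]
  omega

theorem F8 (hP : PC.PFacts p) (hp5 : 5 ≤ p) (k : ℕ) (hk : 1 ≤ k) (hkp : k ≤ p - 2) :
    VanL D (k * (2 * (p - 1)) + 3) (qd p (p + k)) := by
  refine L.vanL3 (s := k * (2 * (p - 1)) + 2) (hP.vanish _ _ ?_) (hvan_of_lt ?_)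
  · have h1 := num_le hp5 k
    rw [show k * (2 * (p - 1)) + 2 + 1 = k * (2 * (p - 1)) + 3 from rfl, mul_add p]
    omega
  · have := lt_ee hp5 (show k ≤ p by omega)
    omega

omit L in
theorem hb_iter (hb : ∀ s t (w : W (MvPolynomial ℕ R)), IsCocycle D s t (w ⊗ₜ x) →
    IsCocycle D (s + 2) (t + qd p p) (mulB B w ⊗ₜ x)) (k : ℕ) :
    ∀ {s N : ℕ} {w : W (MvPolynomial ℕ R)}, IsCocycle D s (qd p N) (w ⊗ₜ x) →
    IsCocycle D (s + 2 * k) (qd p (N + k * p)) ((mulB B)^[k] w ⊗ₜ x) := by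
  induction k with
  | zero => intro s N w h; simpa using h
  | succ k ih =>
    intro s N w h
    have h1 := hb _ _ _ (ih h)
    rw [Function.iterate_succ_apply']
    rw [← qd_add] at h1
    have e : N + k * p + p = N + (k + 1) * p := by ring
    rwa [e] at h1

theorem sub_cocycle {s N : ℕ} {w w' : W (MvPolynomial ℕ R)}
    (h : IsCocycle D s (qd p N) (w ⊗ₜ x)) (h' : IsCocycle D s (qd p N) (w' ⊗ₜ x)) :
    IsCocycle D s (qd p N) ((w - w') ⊗ₜ x) := by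
  rw [L.cocycle_iff] at h h' ⊢
  rw [map_sub, map_sub, h.2, h'.2, sub_zero]
  exact ⟨sub_mem h.1 h'.1, rfl⟩

theorem coeff_sub_mulB (w w' : W (MvPolynomial ℕ R)) (k : ℕ) :
    coeff 0 (ρ (w - (mulB B)^[k] w')) = coeff 0 (ρ w) - (PC.mulb p)^[k] (coeff 0 (ρ w')) := by
  rw [map_sub, coeff_sub, L.coeff_mulB]

theorem F4 (hP : PC.PFacts p) (hp5 : 5 ≤ p)
    (hb : ∀ s t (w : W (MvPolynomial ℕ R)), IsCocycle D s t (w ⊗ₜ x) →
      IsCocycle D (s + 2) (t + qd p p) (mulB B w ⊗ₜ x)) (y : W (MvPolynomial ℕ R))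
    (hy : IsCocycle D (p * (2 * (p - 1)) + 1) (qd p (PC.ee p + p)) (y ⊗ₜ x)) :
    ∃ w : W (MvPolynomial ℕ R), IsCocycle D 5 (qd p (1 + 4 * p + 2 * p ^ 2)) (w ⊗ₜ x) ∧
    IsCobdry D (p * (2 * (p - 1)) + 1) (qd p (PC.ee p + p))
      ((y - (mulB B)^[p ^ 2 - p - 2] w) ⊗ₜ x) := by
  obtain ⟨k, hk, hk'⟩ := hP.G4 _ (L.coeff_cocycle hy)
  obtain ⟨w, hw, rfl⟩ := L.lift_cocycle (hvan_of_lt
    (by have := lt_ee hp5 (Nat.zero_le p); omega)) hk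
  refine ⟨w, hw, L.cobdry_of_coeff (hvan_of_vanish hP ?_) (L.sub_cocycle hy ?_) ?_⟩
  · have := num_le hp5 p
    rw [Nat.add_sub_cancel_left, mul_add, mul_one]
    omega
  · have h1 := hb_iter hb (p ^ 2 - p - 2) hw
    obtain ⟨m, hm⟩ := Nat.exists_eq_add_of_le hp5
    have e1 : 5 + 2 * (p ^ 2 - p - 2) = p * (2 * (p - 1)) + 1 := by
      rw [hm, show 5 + m - 1 = m + 4 by omega,
        show (5 + m) ^ 2 - (5 + m) - 2 = m ^ 2 + 9 * m + 18 by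
          rw [show (5 + m) ^ 2 = m ^ 2 + 9 * m + 18 + 2 + (5 + m) by ring]; omega]
      ring
    have e2 : 1 + 4 * p + 2 * p ^ 2 + (p ^ 2 - p - 2) * p = PC.ee p + p := by
      unfold PC.ee
      rw [hm, show (5 + m) ^ 2 - (5 + m) - 2 = m ^ 2 + 9 * m + 18 by
          rw [show (5 + m) ^ 2 = m ^ 2 + 9 * m + 18 + 2 + (5 + m) by ring]; omega]
      ring
    rwa [e1, e2] at h1
  · rw [L.coeff_sub_mulB]
    exact hk'

theorem F6' (hP : PC.PFacts p) (hp5 : 5 ≤ p)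
    (hb : ∀ s t (w : W (MvPolynomial ℕ R)), IsCocycle D s t (w ⊗ₜ x) →
      IsCocycle D (s + 2) (t + qd p p) (mulB B w ⊗ₜ x)) (y : W (MvPolynomial ℕ R))
    (hy : IsCocycle D (2 * (2 * (p - 1)) + 6) (qd p (PC.ee p + 3 * p + 2)) (y ⊗ₜ x)) :
    ∃ T : W (MvPolynomial ℕ R), IsCocycle D (2 * (2 * (p - 1))) (qd p (PC.ee p + 2)) (T ⊗ₜ x) ∧
      IsCobdry D (2 * (2 * (p - 1)) + 6) (qd p (PC.ee p + 3 * p + 2))
        ((y - (mulB B)^[3] T) ⊗ₜ x) := by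
  have h40 := num_le hp5 2
  have h8 := num_le' hp5 (show 1 ≤ 2 by omega)
  obtain ⟨k, hk, hk'⟩ := hP.G6' _ (L.coeff_cocycle hy)
  obtain ⟨T, hT, rfl⟩ := L.lift_cocycle (hvan_of_vanish hP (by
    rw [Nat.add_sub_cancel_left, mul_add, mul_one]
    omega)) hk
  refine ⟨T, hT, L.cobdry_of_coeff (s := 2 * (2 * (p - 1)) + 5) (hvan_of_vanish hP ?_)
    (L.sub_cocycle hy ?_) ?_⟩
  · rw [show PC.ee p + 3 * p + 2 - PC.ee p = 3 * p + 2 by omega,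
      show 2 * (2 * (p - 1)) + 5 + 1 = 2 * (2 * (p - 1)) + 6 from rfl, mul_add p, mul_add 2]
    omega
  · have h1 := hb_iter hb 3 hT
    have e2 : PC.ee p + 2 + 3 * p = PC.ee p + 3 * p + 2 := by ring
    rwa [e2] at h1
  · rw [L.coeff_sub_mulB]
    exact hk'

theorem F7 (hP : PC.PFacts p) (hp5 : 5 ≤ p) (y : W (MvPolynomial ℕ R))
    (hy : IsCocycle D (p * (2 * (p - 1)) + 1) (qd p (PC.ee p + p)) (y ⊗ₜ x))
    (hby : IsCobdry D (p * (2 * (p - 1)) + 7) (qd p (PC.ee p + 4 * p)) (((mulB B)^[3] y) ⊗ₜ x)) :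
    IsCobdry D (p * (2 * (p - 1)) + 1) (qd p (PC.ee p + p)) (y ⊗ₜ x) := by
  refine L.cobdry_of_coeff (hvan_of_vanish hP ?_) hy (hP.G7 _ (L.coeff_cocycle hy) ?_)
  · have := num_le hp5 p
    rw [Nat.add_sub_cancel_left, mul_add, mul_one]
    omega
  · have := L.coeff_cobdry (s := p * (2 * (p - 1)) + 6) hby
    rwa [L.coeff_mulB] at this

end Lift

/-- The facts on `Ext(BP_*, BP_*/I_4)` follow from those on `Ext_P(F_p, F_p)`. -/
theorem lfacts (hP : PC.PFacts p) (hp5 : 5 ≤ p) (hR : IsZp p R) (hB : B.v = gen (p : R))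
    (hx : IsCyclic D 4 0 x) (hdd : ∀ s t z, IsCobdry D s t z → IsCocycle D s t z)
    (hb : ∀ s t (w : W (MvPolynomial ℕ R)), IsCocycle D s t (w ⊗ₜ x) →
      IsCocycle D (s + 2) (t + qd p p) (mulB B w ⊗ₜ x)) : LFacts D x := by
  obtain ⟨r, ρ, σ, d, L⟩ := exists_Lift (n := 3) hR hB hx hdd
  exact
    { F0 := L.F0
      F0' := L.F0'
      F1 := L.F1
      F1' := L.F1'
      F2 := fun z y hz _ hzy => L.F2 hP z y hz hzy
      F3 := L.F3 hP hp5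
      F4 := L.F4 hP hp5 hb
      F4' := L.F4' hP hp5
      F5 := L.F5 hP hp5
      F6 := L.F6 hP hp5
      F6' := L.F6' hP hp5 hb
      F7 := L.F7 hP hp5
      F8 := L.F8 hP hp5 }

end Vale.Agent.P257L
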