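import Vale.Agent.P257.L.Model

/-! Cochains of `BP_*/I_(n+1)` and of the model. -/

set_option linter.unusedSectionVars false

namespace Vale.Agent.P257L

open MvPolynomial TensorProduct Finset Vale.Agent.P257.Q Vale.Agent.P257.S

section Deg

variable {p n : ℕ}

theorem mul_mem_Ch {s N M : ℕ} {k l : PC.KP p} (hk : k ∈ PC.Ch p s N) (hl : l ∈ PC.Ch p s M) :
    k * l ∈ PC.Ch p s (N + M) := by
  have := Submodule.mul_mem_mul hk hl
  unfold PC.Ch at this
  rw [Submodule.span_mul_span] at this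
  refine Submodule.span_mono ?_ this
  rintro _ ⟨_, ⟨e, he, heN, rfl⟩, _, ⟨f, hf, hfM, rfl⟩, rfl⟩
  refine ⟨e + f, fun i hi => (Finset.mem_union.1 (Finsupp.support_add hi)).elim (he i) (hf i),
    ?_, by simp [monomial_mul]⟩
  rw [Finsupp.sum_add_index' (fun _ => by simp) (fun _ _ _ => by ring), heN, hfM]

theorem one_mem_Ch (s : ℕ) : (1 : PC.KP p) ∈ PC.Ch p s 0 :=
  Submodule.subset_span ⟨0, by simp, by simp, rfl⟩

theorem wv_add (α β : ℕ →₀ ℕ) : wv p n (α + β) = wv p n α + wv p n β := by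
  unfold wv
  exact Finsupp.sum_add_index' (fun _ => by simp) fun _ _ _ => by ring

theorem mul_mem_GC {s N M : ℕ} {g h : GG p} (hg : g ∈ GC p n s N) (hh : h ∈ GC p n s M) :
    g * h ∈ GC p n s (N + M) := by
  intro α hα
  obtain ⟨β, γ, hβγ, h1, h2⟩ := exists_of_coeff_mul_ne hα
  have h3 := (hg β h1).1
  have h4 := (hh γ h2).1
  refine ⟨by rw [← hβγ, wv_add]; omega, ?_⟩
  rw [coeff_mul]
  refine sum_mem fun y hy => ?_
  rw [Finset.HasAntidiagonal.mem_antidiagonal] at hy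
  by_cases h5 : coeff y.1 g = 0
  · rw [h5, zero_mul]; exact zero_mem _
  by_cases h6 : coeff y.2 h = 0
  · rw [h6, mul_zero]; exact zero_mem _
  have h7 := hg _ h5
  have h8 := hh _ h6
  have h9 := mul_mem_Ch h7.2 h8.2
  have h10 := h7.1
  have h11 := h8.1
  rw [← hy, wv_add]
  convert h9 using 2
  omega

theorem C_mem_GC {s N : ℕ} {k : PC.KP p} (hk : k ∈ PC.Ch p s N) : (C k : GG p) ∈ GC p n s N :=
  monomial_mem_GC (by rw [wv_zero]; omega) (by rwa [wv_zero])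

theorem one_mem_GC (s : ℕ) : (1 : GG p) ∈ GC p n s 0 := C_mem_GC (one_mem_Ch s)

theorem wv_single (i : ℕ) : wv p n (Finsupp.single i 1) = PC.wt p (i + n) := by simp [wv]

theorem X_mem_GC (s i : ℕ) : (X i : GG p) ∈ GC p n s (PC.wt p (i + n)) :=
  monomial_mem_GC (by rw [wv_single]) (by rw [wv_single, Nat.sub_self]; exact one_mem_Ch s)

theorem pow_mem_GC {s N : ℕ} {g : GG p} (hg : g ∈ GC p n s N) (k : ℕ) :
    g ^ k ∈ GC p n s (k * N) := by
  induction k with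
  | zero => simpa using one_mem_GC s
  | succ k ih =>
    rw [pow_succ, Nat.succ_mul]
    exact mul_mem_GC ih hg

theorem prod_mem_GC {ι : Type*} {s : ℕ} (t : Finset ι) {N : ι → ℕ} {g : ι → GG p}
    (hg : ∀ i ∈ t, g i ∈ GC p n s (N i)) : ∏ i ∈ t, g i ∈ GC p n s (∑ i ∈ t, N i) := by
  classical
  induction t using Finset.induction_on with
  | empty => simpa using one_mem_GC s
  | insert i t hi ih =>
    rw [Finset.prod_insert hi, Finset.sum_insert hi]
    exact mul_mem_GC (hg i (Finset.mem_insert_self _ _))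
      (ih fun j hj => hg j (Finset.mem_insert_of_mem hj))

variable [hp : Fact p.Prime]

theorem vdeg_eq (n : ℕ) : vdeg p (n + 1) = qd p (PC.wt p n) := by
  have h1 := geom_sum_mul (p : ℤ) (n + 1)
  unfold vdeg qd PC.wt
  rw [← h1]
  have h2 : ((p - 1 : ℕ) : ℤ) = p - 1 := by
    rw [Nat.cast_sub hp.out.one_lt.le, Nat.cast_one]
  push_cast [h2]
  ring

theorem qd_add (a b : ℕ) : qd p (a + b) = qd p a + qd p b := by
  unfold qd; push_cast; ring

theorem qd_mul (a b : ℕ) : qd p (a * b) = a * qd p b := by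
  unfold qd; push_cast; ring

theorem qd_zero : qd p 0 = 0 := by simp [qd]

theorem qd_inj {a b : ℕ} (h : qd p a = qd p b) : a = b := by
  unfold qd at h
  have h2 : ((2 * (p - 1) : ℕ) : ℤ) ≠ 0 := by
    have := hp.out.one_lt
    omega
  exact_mod_cast mul_left_cancel₀ h2 h

theorem qd_sum {ι : Type*} (t : Finset ι) (f : ι → ℕ) : qd p (∑ i ∈ t, f i) = ∑ i ∈ t, qd p (f i) := by
  unfold qd
  rw [← Finset.mul_sum]
  push_cast
  rfl

end Deg

variable {p n : ℕ} [hp : Fact p.Prime] {R : Type} [CommRing R] {B : BPBP p (MvPolynomial ℕ R)}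
  {M : ModuleCat.{0} (MvPolynomial ℕ R)} {D : Comod B M} {x : M}
  {r : R →+* ZMod p} {ρ : W (MvPolynomial ℕ R) →+* GG p}

theorem ρ_monomial (hρ : Red p n B r ρ) (e : ℕ × ℕ →₀ ℕ) (a : MvPolynomial ℕ R) :
    ρ (monomial e a) = ρ (C a) * C (monomial e 1) := by
  rw [monomial_eq, map_mul, Finsupp.prod, map_prod]
  congr 1
  rw [monomial_eq, C_1, one_mul, Finsupp.prod, map_prod]
  refine Finset.prod_congr rfl fun i _ => ?_
  rw [map_pow, map_pow, hρ.t]

theorem ρ_CX (hρ : Red p n B r ρ) (hB : B.v = gen (p : R)) (s i : ℕ) :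
    ρ (C (X i)) ∈ GC p n s (PC.wt p i) := by
  by_cases h : i < n
  · have := hρ.low (i + 1) (by omega)
    rw [hB, gen_succ] at this
    rw [this]
    exact zero_mem _
  · obtain ⟨j, rfl⟩ := Nat.exists_eq_add_of_le (not_lt.1 h)
    have := hρ.v j
    rw [hB, show n + 1 + j = n + j + 1 by ring, gen_succ] at this
    rw [this, add_comm n j]
    exact X_mem_GC s j

theorem ρ_grP (hρ : Red p n B r ρ) (hB : B.v = gen (p : R)) {s N e : ℕ} {k : ℤ}
    {a : MvPolynomial ℕ R} (ha : a ∈ grP p R k) (hk : k + qd p e = qd p N) {g : GG p}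
    (hg : g ∈ GC p n s e) : g * ρ (C a) ∈ GC p n s N := by
  rw [a.as_sum, map_sum, map_sum, Finset.mul_sum]
  refine sum_mem fun γ hγ => ?_
  have h1 : Finsupp.weight (Vale.Agent.P257.S.wt p) γ = k := ha (mem_support_iff.1 hγ)
  rw [← weight_eq_sum] at h1
  have h2 : (γ.sum fun k m => (m : ℤ) * vdeg p (k + 1)) = qd p (γ.sum fun i m => m * PC.wt p i) := by
    unfold Finsupp.sum
    rw [qd_sum]
    refine Finset.sum_congr rfl fun i _ => ?_
    change ((γ i : ℕ) : ℤ) * vdeg p (i + 1) = qd p (γ i * PC.wt p i)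
    rw [vdeg_eq, qd_mul]
  have h3 : e + (γ.sum fun i m => m * PC.wt p i) = N := by
    apply qd_inj (p := p)
    rw [qd_add, ← h2, h1, ← hk, add_comm]
  rw [← h3]
  refine mul_mem_GC hg ?_
  rw [monomial_eq, map_mul, map_mul, hρ.const, Finsupp.prod, map_prod, map_prod, ← zero_add (γ.sum _)]
  refine mul_mem_GC (C_mem_GC ?_) (prod_mem_GC _ fun i _ => ?_)
  · rw [← mul_one (C (r _)), ← smul_eq_C_mul]
    exact Submodule.smul_mem _ _ (one_mem_Ch s)
  · rw [map_pow, map_pow]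
    exact pow_mem_GC (ρ_CX hρ hB s i) _

theorem exists_homog (hR : IsZp p R) (hB : B.v = gen (p : R)) (hx : IsCyclic D (n + 1) 0 x) {k : ℤ}
    {y : M} (hy : y ∈ D.deg k) : ∃ a ∈ grP p R k, y = a • x := by
  obtain ⟨a, rfl⟩ := hx.2.2.1 y
  obtain ⟨π, -, h2, h3, -⟩ := Vale.Agent.P257.exists_proj _ D.internal
  classical
  refine ⟨(DirectSum.decompose (grP p R) a k : MvPolynomial ℕ R), Subtype.property _, ?_⟩
  have hmem : ∀ i, (DirectSum.decompose (grP p R) a i : MvPolynomial ℕ R) • x ∈ D.deg i := fun i => by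
    have := smul_mem' hR hB D i 0 _ x (Subtype.property (DirectSum.decompose (grP p R) a i)) hx.1
    rwa [add_zero] at this
  rw [← h2 k _ hy]
  conv_lhs => rw [← DirectSum.sum_support_decompose (grP p R) a]
  rw [Finset.sum_smul, map_sum]
  by_cases hj : k ∈ (DirectSum.decompose (grP p R) a).support
  · rw [Finset.sum_eq_single_of_mem k hj]
    · exact h2 _ _ (hmem k)
    · intro i _ hij
      exact h3 _ _ _ (hmem i) hij
  · rw [Finset.sum_eq_zero]
    · rw [DFinsupp.notMem_support_iff.1 hj]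
      simp
    · intro i hi
      have hij : i ≠ k := fun h => hj (h ▸ hi)
      exact h3 _ _ _ (hmem i) hij

theorem sum_vdeg (e : ℕ × ℕ →₀ ℕ) :
    (e.sum fun i m => (m : ℤ) * vdeg p (i.2 + 1)) = qd p (e.sum fun i m => m * PC.wt p i.2) := by
  unfold Finsupp.sum
  rw [qd_sum]
  refine Finset.sum_congr rfl fun i _ => ?_
  change ((e i : ℕ) : ℤ) * vdeg p (i.2 + 1) = qd p (e i * PC.wt p i.2)
  rw [vdeg_eq, qd_mul]

theorem exists_of_cochain (hR : IsZp p R) (hB : B.v = gen (p : R)) (hρ : Red p n B r ρ)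
    (hx : IsCyclic D (n + 1) 0 x) {s N : ℕ} {z : W (MvPolynomial ℕ R) ⊗[MvPolynomial ℕ R] M}
    (hz : z ∈ cochain D s (qd p N)) :
    ∃ w : W (MvPolynomial ℕ R), z = w ⊗ₜ x ∧ ρ w ∈ GC p n s N := by
  unfold cochain at hz
  induction hz using AddSubgroup.closure_induction with
  | mem z hz =>
    obtain ⟨e, k, y, he, hy, hk, rfl⟩ := hz
    obtain ⟨a, ha, rfl⟩ := exists_homog hR hB hx hy
    refine ⟨a • monomial e 1, (smul_tmul a _ x).symm, ?_⟩
    rw [sum_vdeg] at hk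
    rw [ρ_smul, ρ_monomial hρ, map_one, map_one, one_mul, mul_comm]
    exact ρ_grP hρ hB ha hk (C_mem_GC (Submodule.subset_span ⟨e, he, rfl, rfl⟩))
  | zero => exact ⟨0, (zero_tmul _ _).symm, by rw [map_zero]; exact zero_mem _⟩
  | add z z' _ _ h h' =>
    obtain ⟨w, rfl, hw⟩ := h
    obtain ⟨w', rfl, hw'⟩ := h'
    exact ⟨w + w', (add_tmul _ _ _).symm, by rw [map_add]; exact add_mem hw hw'⟩
  | neg z _ h =>
    obtain ⟨w, rfl, hw⟩ := h
    exact ⟨-w, (neg_tmul _ _).symm, by rw [map_neg]; exact neg_mem hw⟩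

/-- The monomial in `v_(n+1), v_(n+2), ...`. -/
noncomputable def vv (n : ℕ) (R : Type) [CommRing R] (α : ℕ →₀ ℕ) : MvPolynomial ℕ R :=
  ∏ i ∈ α.support, X (i + n) ^ α i

theorem vv_mem (α : ℕ →₀ ℕ) : vv n R α ∈ grP p R (qd p (wv p n α)) := by
  unfold wv vv Finsupp.sum
  rw [qd_sum]
  refine IsWeightedHomogeneous.prod _ _ _ fun i _ => ?_
  rw [qd_mul, ← vdeg_eq, ← nsmul_eq_mul]
  exact (isWeightedHomogeneous_X R (Vale.Agent.P257.S.wt p) (i + n)).pow (α i)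

theorem ρ_vv (hρ : Red p n B r ρ) (hB : B.v = gen (p : R)) (α : ℕ →₀ ℕ) :
    ρ (C (vv n R α)) = monomial α 1 := by
  rw [monomial_eq, C_1, one_mul, Finsupp.prod, vv, map_prod, map_prod]
  refine Finset.prod_congr rfl fun i _ => ?_
  have := hρ.v i
  rw [hB, show n + 1 + i = i + n + 1 by ring, gen_succ] at this
  rw [map_pow, map_pow, this]

theorem mem_cochain_aux (hR : IsZp p R) (hB : B.v = gen (p : R)) (hρ : Red p n B r ρ)
    (hx : IsCyclic D (n + 1) 0 x) {s N a : ℕ} {α : ℕ →₀ ℕ} (hα : wv p n α + a = N) {k : PC.KP p}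
    (hk : k ∈ PC.Ch p s a) :
    ∃ w : W (MvPolynomial ℕ R), ρ w = monomial α k ∧
      w ⊗ₜ[MvPolynomial ℕ R] x ∈ cochain D s (qd p N) := by
  unfold PC.Ch at hk
  induction hk using Submodule.span_induction with
  | mem k hk =>
    obtain ⟨e, he, hn, rfl⟩ := hk
    refine ⟨vv n R α • monomial e 1, ?_, ?_⟩
    · rw [ρ_smul, ρ_vv hρ hB, ρ_monomial hρ, C_1, map_one ρ, one_mul, mul_comm, C_mul_monomial,
        mul_one]
    · rw [smul_tmul]
      refine AddSubgroup.subset_closure ⟨e, qd p (wv p n α), vv n R α • x, he, ?_, ?_, rfl⟩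
      · have := smul_mem' hR hB D _ 0 _ x (vv_mem (p := p) (n := n) (R := R) α) hx.1
        rwa [add_zero] at this
      · rw [sum_vdeg, hn, ← qd_add, hα]
  | zero => exact ⟨0, by rw [map_zero, map_zero], by rw [zero_tmul]; exact zero_mem _⟩
  | add k k' _ _ h h' =>
    obtain ⟨w, hw, hw1⟩ := h
    obtain ⟨w', hw', hw1'⟩ := h'
    exact ⟨w + w', by rw [map_add, hw, hw', map_add], by rw [add_tmul]; exact add_mem hw1 hw1'⟩
  | smul c k _ h =>
    obtain ⟨w, hw, hw1⟩ := h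
    refine ⟨(c.val : ℤ) • w, ?_, by rw [zsmul_tmul]; exact zsmul_mem hw1 _⟩
    rw [map_zsmul, hw, ← map_zsmul, natCast_zsmul, ← Nat.cast_smul_eq_nsmul (ZMod p),
      ZMod.natCast_zmod_val]

theorem mem_cochain (hR : IsZp p R) (hB : B.v = gen (p : R)) (hρ : Red p n B r ρ)
    (hx : IsCyclic D (n + 1) 0 x) {s N : ℕ} {g : GG p} (hg : g ∈ GC p n s N) :
    ∃ w : W (MvPolynomial ℕ R), ρ w = g ∧
      w ⊗ₜ[MvPolynomial ℕ R] x ∈ cochain D s (qd p N) := by
  have key : ∀ α ∈ g.support, ∃ w : W (MvPolynomial ℕ R), ρ w = monomial α (coeff α g) ∧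
      w ⊗ₜ[MvPolynomial ℕ R] x ∈ cochain D s (qd p N) := fun α hα => by
    have h1 := hg α (mem_support_iff.1 hα)
    exact mem_cochain_aux hR hB hρ hx (Nat.add_sub_cancel' h1.1) h1.2
  choose! w hw1 hw2 using key
  refine ⟨∑ α ∈ g.support, w α, ?_, ?_⟩
  · rw [map_sum, Finset.sum_congr rfl hw1]
    exact g.support_sum_monomial_coeff
  · rw [sum_tmul]
    exact sum_mem hw2

/-- Cochains. -/
theorem cochain_iff (hR : IsZp p R) (hB : B.v = gen (p : R)) (hρ : Red p n B r ρ)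
    (hx : IsCyclic D (n + 1) 0 x) {s N : ℕ} (w : W (MvPolynomial ℕ R)) :
    w ⊗ₜ[MvPolynomial ℕ R] x ∈ cochain D s (qd p N) ↔ ρ w ∈ GC p n s N := by
  constructor
  · intro h
    obtain ⟨w', h1, h2⟩ := exists_of_cochain hR hB hρ hx h
    rwa [(tmul_eq hρ hx w w').1 h1]
  · intro h
    obtain ⟨w', h1, h2⟩ := mem_cochain hR hB hρ hx h
    rwa [(tmul_eq hρ hx w w').2 h1.symm]

/-- Cocycles. -/
theorem isCocycle_iff (hR : IsZp p R) (hB : B.v = gen (p : R)) (hρ : Red p n B r ρ)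
    {σ : GG p →+* GG p} {d : ℕ → GG p →+* GG p} (hc : Comp B ρ σ d)
    (hx : IsCyclic D (n + 1) 0 x) {s N : ℕ} (w : W (MvPolynomial ℕ R)) :
    IsCocycle D s (qd p N) (w ⊗ₜ x) ↔ ρ w ∈ GC p n s N ∧ cobG σ d s (ρ w) = 0 := by
  unfold IsCocycle
  rw [cochain_iff hR hB hρ hx, cobar_tmul hx, tmul_eq_zero hρ hx, ρ_cobW hc]

/-- Coboundaries. -/
theorem isCobdry_iff (hR : IsZp p R) (hB : B.v = gen (p : R)) (hρ : Red p n B r ρ)
    {σ : GG p →+* GG p} {d : ℕ → GG p →+* GG p} (hc : Comp B ρ σ d)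
    (hx : IsCyclic D (n + 1) 0 x) {s N : ℕ} (w : W (MvPolynomial ℕ R)) :
    IsCobdry D (s + 1) (qd p N) (w ⊗ₜ x) ↔ ∃ y ∈ GC p n s N, cobG σ d s y = ρ w := by
  unfold IsCobdry
  constructor
  · rintro (h | ⟨n, hn, y, hy, h⟩)
    · exact ⟨0, zero_mem _, by rw [map_zero, (tmul_eq_zero hρ hx w).1 h]⟩
    · obtain rfl : s = n := by omega
      obtain ⟨v, rfl, hv⟩ := exists_of_cochain hR hB hρ hx hy
      refine ⟨ρ v, hv, ?_⟩
      rw [cobar_tmul hx, tmul_eq hρ hx] at h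
      rw [h, ρ_cobW hc]
  · rintro ⟨y, hy, h⟩
    obtain ⟨v, rfl, hv⟩ := mem_cochain hR hB hρ hx hy
    refine Or.inr ⟨s, rfl, _, hv, ?_⟩
    rw [cobar_tmul hx, tmul_eq hρ hx, ρ_cobW hc, h]

/-- `d^2 = 0` in the model. -/
theorem dd_GG (hR : IsZp p R) (hB : B.v = gen (p : R)) (hρ : Red p n B r ρ)
    {σ : GG p →+* GG p} {d : ℕ → GG p →+* GG p} (hc : Comp B ρ σ d) (hx : IsCyclic D (n + 1) 0 x)
    (hdd : ∀ s t z, IsCobdry D s t z → IsCocycle D s t z) (s N : ℕ) (g : GG p)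
    (hg : g ∈ GC p n s N) : cobG σ d s g ∈ GC p n (s + 1) N ∧ cobG σ d (s + 1) (cobG σ d s g) = 0 := by
  obtain ⟨w, hw⟩ := hρ.surj (cobG σ d s g)
  have h1 : IsCobdry D (s + 1) (qd p N) (w ⊗ₜ x) :=
    (isCobdry_iff hR hB hρ hc hx w).2 ⟨g, hg, hw.symm⟩
  have h2 := (isCocycle_iff hR hB hρ hc hx w).1 (hdd _ _ _ h1)
  rwa [hw] at h2

end Vale.Agent.P257L
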