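import Vale.Agent.P257.L.Coch

/-! The faces of the cobar complex of `BP_*/I_(n+1)` up to higher filtration. -/

set_option linter.unusedSectionVars false

namespace Vale.Agent.P257L

open MvPolynomial Finset Vale.Agent.P257.Q Vale.Agent.P257.S

variable {p n : ℕ} [hp : Fact p.Prime] {R : Type} [CommRing R] {B : BPBP p (MvPolynomial ℕ R)}
  {r : R →+* ZMod p} {ρ : W (MvPolynomial ℕ R) →+* GG p} {σ : GG p →+* GG p}
  {d : ℕ → GG p →+* GG p}

/-- The congruences for the structure maps of `BP_*BP`. -/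
structure Eta (B : BPBP p (MvPolynomial ℕ R)) : Prop where
  N1 : ∀ n, B.Δ (gen 1 n) - ∑ j ∈ range (n + 1), rename Sum.inl (gen 1 j) *
    rename Sum.inr (gen 1 (n - j)) ^ p ^ j ∈ Ideal.span (Set.range fun i => C (B.v i))
  N2 : ∀ n, B.η (B.v n) - ∑ i ∈ range (n + 1), C (B.v i) * gen 1 (n - i) ^ p ^ i ∈
    Ideal.span (Set.range fun i => C (B.v i)) ^ 2

/-- The ideal of the `v`'s. -/
noncomputable def VV (p : ℕ) : Ideal (GG p) := Ideal.span (Set.range fun i => X i)

theorem cN_ge (N i : ℕ) : N + 1 ≤ cN p n N i := by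
  unfold cN
  omega

theorem VV_le (N : ℕ) : VV p ≤ Fil (cN p n N) (N + 1) := by
  unfold VV
  rw [Ideal.span_le]
  rintro _ ⟨i, rfl⟩
  exact Fil_mono (cN_ge N i) (X_mem_Fil i)

theorem VV_le_one (N : ℕ) : VV p ≤ Fil (cN p n N) 1 := (VV_le N).trans (Fil_mono (by omega))

theorem VV_sq_le (N : ℕ) : VV p ^ 2 ≤ Fil (cN p n N) (2 * (N + 1)) := by
  rw [pow_two, two_mul]
  refine Ideal.mul_le.2 fun g hg h hh => mul_mem_Fil (VV_le N hg) (VV_le N hh)

theorem η_mem (hE : Eta B) (n : ℕ) : B.η (B.v n) ∈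
    (Ideal.span (Set.range fun i => C (B.v i)) : Ideal (MvPolynomial ℕ (MvPolynomial ℕ R))) := by
  have h1 := Ideal.pow_le_self (two_ne_zero) (hE.N2 n)
  have h2 : ∑ i ∈ range (n + 1), C (B.v i) * gen 1 (n - i) ^ p ^ i ∈
      (Ideal.span (Set.range fun i => C (B.v i)) : Ideal (MvPolynomial ℕ (MvPolynomial ℕ R))) :=
    sum_mem fun i _ => Ideal.mul_mem_right _ _ (Ideal.subset_span ⟨i, rfl⟩)
  have := add_mem h1 h2
  rwa [sub_add_cancel] at this

theorem src_mem (hρ : Red p n B r ρ) (hE : Eta B) (j : ℕ) : ∀ i, ρ (src B j (B.v i)) ∈ VV p := by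
  induction j with
  | zero =>
    intro i
    rw [src]
    by_cases h : i < n + 1
    · rw [hρ.low i h]
      exact zero_mem _
    · obtain ⟨i', rfl⟩ := Nat.exists_eq_add_of_le (not_lt.1 h)
      rw [hρ.v]
      exact Ideal.subset_span ⟨i', rfl⟩
  | succ j ih =>
    intro i
    have h1 : (Ideal.span (Set.range fun i => C (B.v i)) : Ideal (MvPolynomial ℕ (MvPolynomial ℕ R)))
        ≤ Ideal.comap (ρ.comp (eval₂Hom (src B j) fun n => X (j, n))) (VV p) := by
      rw [Ideal.span_le]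
      rintro _ ⟨k, rfl⟩
      change ρ (eval₂Hom (src B j) (fun n => X (j, n)) (C (B.v k))) ∈ VV p
      rw [coe_eval₂Hom, eval₂_C]
      exact ih k
    exact h1 (η_mem hE i)

theorem wt_lt {a b : ℕ} (h : a < b) : PC.wt p a < PC.wt p b := by
  unfold PC.wt
  refine Finset.sum_lt_sum_of_subset (i := b) (Finset.range_subset_range.2 (by omega))
    (by simp) (by simp; omega) (pow_pos hp.out.pos _) fun _ _ _ => Nat.zero_le _

theorem ρ_gen (hρ : Red p n B r ρ) (j n : ℕ) :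
    ρ (if n = 0 then 1 else X (j, n - 1)) = C (PC.tt p j n) := by
  unfold PC.tt
  split_ifs with h
  · rw [map_one, map_one]
  · rw [hρ.t]

theorem cN_lt {N i k : ℕ} (hN : PC.wt p (i + n) ≤ N) (hk : k < i) : cN p n N i + 1 ≤ cN p n N k := by
  have := wt_lt (p := p) (show k + n < i + n by omega)
  unfold cN
  omega

theorem faces_s1 (hρ : Red p n B r ρ) (hc : Comp B ρ σ d) (hE : Eta B) (N i : ℕ)
    (hN : PC.wt p (i + n) ≤ N) : σ (X i) - X i ∈ Fil (cN p n N) (cN p n N i + 1) := by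
  have hη : σ (X i) = ρ (eval₂Hom C (fun n => X (0, n)) (B.η (B.v (n + 1 + i)))) := by
    rw [← hρ.v i, ← hc.σ]
    simp only [shift, coe_eval₂Hom, eval₂_C]
    rfl
  set ev : MvPolynomial ℕ (MvPolynomial ℕ R) →+* W (MvPolynomial ℕ R) :=
    eval₂Hom C (fun n => X (0, n)) with hev
  have hJ : (Ideal.span (Set.range fun i => C (B.v i)) : Ideal (MvPolynomial ℕ (MvPolynomial ℕ R)))
      ≤ Ideal.comap (ρ.comp ev) (VV p) := by
    rw [Ideal.span_le]
    rintro _ ⟨k, rfl⟩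
    change ρ (ev (C (B.v k))) ∈ VV p
    rw [hev, coe_eval₂Hom, eval₂_C]
    exact src_mem hρ hE 0 k
  have hJ2 : ρ (ev (B.η (B.v (n + 1 + i)) - ∑ k ∈ range (n + 1 + i + 1), C (B.v k) *
      gen 1 (n + 1 + i - k) ^ p ^ k)) ∈ VV p ^ 2 := by
    have h1 := Ideal.pow_right_mono hJ 2 (hE.N2 (n + 1 + i))
    exact Ideal.le_comap_pow (ρ.comp ev) 2 h1
  have h2 := Fil_mono (show cN p n N i + 1 ≤ 2 * (N + 1) by
    have := wt_pos p (i + n)
    unfold cN
    omega) (VV_sq_le (n := n) N hJ2)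
  rw [map_sub, map_sub, ← hη, Finset.sum_range_succ, map_add, map_add, Nat.sub_self] at h2
  have h3 : ρ (ev (C (B.v (n + 1 + i)) * gen 1 0 ^ p ^ (n + 1 + i))) = X i := by
    rw [gen_zero, map_one, one_pow, mul_one, hev, coe_eval₂Hom, eval₂_C, hρ.v]
  have h4 : ρ (ev (∑ k ∈ range (n + 1 + i), C (B.v k) * gen 1 (n + 1 + i - k) ^ p ^ k)) ∈
      Fil (cN p n N) (cN p n N i + 1) := by
    rw [map_sum, map_sum]
    refine sum_mem fun k hk => ?_
    rw [Finset.mem_range] at hk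
    rw [map_mul, map_mul]
    refine Ideal.mul_mem_right _ _ ?_
    rw [hev, coe_eval₂Hom, eval₂_C]
    by_cases h : k < n + 1
    · rw [hρ.low k h]
      exact zero_mem _
    · obtain ⟨k', rfl⟩ := Nat.exists_eq_add_of_le (not_lt.1 h)
      rw [hρ.v]
      exact Fil_mono (cN_lt hN (by omega)) (X_mem_Fil k')
  rw [h3] at h2
  have h5 := add_mem h2 h4
  have e : ∀ a b c : GG p, a - (b + c) + b = a - c := fun a b c => by ring
  rwa [e] at h5

theorem Δ_mem (hρ : Red p n B r ρ) (hE : Eta B) (j n : ℕ) :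
    ρ (eval₂Hom (src B j) (Sum.elim (fun n => X (j, n)) fun n => X (j + 1, n)) (B.Δ (X n))) -
      C (∑ a ∈ range (n + 2), PC.tt p j a * PC.tt p (j + 1) (n + 1 - a) ^ p ^ a) ∈ VV p := by
  set ev : MvPolynomial (ℕ ⊕ ℕ) (MvPolynomial ℕ R) →+* W (MvPolynomial ℕ R) :=
    eval₂Hom (src B j) (Sum.elim (fun n => X (j, n)) fun n => X (j + 1, n)) with hev
  have hJ : (Ideal.span (Set.range fun i => C (B.v i)) :
      Ideal (MvPolynomial (ℕ ⊕ ℕ) (MvPolynomial ℕ R))) ≤ Ideal.comap (ρ.comp ev) (VV p) := by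
    rw [Ideal.span_le]
    rintro _ ⟨k, rfl⟩
    change ρ (ev (C (B.v k))) ∈ VV p
    rw [hev, coe_eval₂Hom, eval₂_C]
    exact src_mem hρ hE j k
  have h1 : ρ (ev _) ∈ VV p := hJ (hE.N1 (n + 1))
  have hl : ∀ a, ρ (ev (rename Sum.inl (gen 1 a))) = C (PC.tt p j a) := by
    intro a
    rw [← ρ_gen hρ]
    congr 1
    rw [hev, coe_eval₂Hom, eval₂_rename]
    cases a with
    | zero => rw [gen_zero, C_1, eval₂_one, if_pos rfl]
    | succ a => rw [gen_succ, eval₂_X, if_neg (by omega)]; rfl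
  have hr : ∀ a, ρ (ev (rename Sum.inr (gen 1 a))) = C (PC.tt p (j + 1) a) := by
    intro a
    rw [← ρ_gen hρ]
    congr 1
    rw [hev, coe_eval₂Hom, eval₂_rename]
    cases a with
    | zero => rw [gen_zero, C_1, eval₂_one, if_pos rfl]
    | succ a => rw [gen_succ, eval₂_X, if_neg (by omega)]; rfl
  rw [map_sub, map_sub, gen_succ, map_sum, map_sum] at h1
  rw [map_sum]
  convert h1 using 3 with a _
  rw [map_mul, map_mul, map_mul, map_pow, map_pow, map_pow, hl, hr]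

theorem faces_d2 (hρ : Red p n B r ρ) (hc : Comp B ρ σ d) (hE : Eta B) (N j : ℕ) (k : PC.KP p) :
    d j (C k) - C (PC.δ p j k) ∈ Fil (cN p n N) 1 := by
  rw [← Ideal.Quotient.eq]
  have key : ((Ideal.Quotient.mk (Fil (cN p n N) 1)).comp (d j)).comp C =
      ((Ideal.Quotient.mk (Fil (cN p n N) 1)).comp C).comp (PC.δ p j : PC.KP p →+* PC.KP p) := by
    refine ringHom_ext (fun c => ?_) fun y => ?_
    · exact RingHom.congr_fun (RingHom.ext_zmod
        ((((Ideal.Quotient.mk (Fil (cN p n N) 1)).comp (d j)).comp C).comp C)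
        ((((Ideal.Quotient.mk (Fil (cN p n N) 1)).comp C).comp
          (PC.δ p j : PC.KP p →+* PC.KP p)).comp C)) c
    · change Ideal.Quotient.mk _ (d j (C (X y))) = Ideal.Quotient.mk _ (C (PC.δ p j (X y)))
      rw [Ideal.Quotient.eq, ← hρ.t, ← hc.d]
      simp only [face, PC.δ, aeval_X]
      split_ifs with h1 h2
      · rw [hρ.t, sub_self]
        exact zero_mem _
      · exact VV_le_one N (Δ_mem hρ hE j y.2)
      · rw [hρ.t, sub_self]
        exact zero_mem _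
  exact RingHom.congr_fun key k

theorem faces (hρ : Red p n B r ρ) (hc : Comp B ρ σ d) (hE : Eta B) : Faces p n σ d := by
  refine ⟨fun N i hN => faces_s1 hρ hc hE N i hN, fun k => ?_, fun j i => ?_,
    fun N j k => faces_d2 hρ hc hE N j k⟩
  · have key : (σ.comp C : PC.KP p →+* GG p) = (C : PC.KP p →+* GG p).comp
        (PC.sh p : PC.KP p →+* PC.KP p) := by
      refine ringHom_ext (fun c => ?_) fun y => ?_
      · exact RingHom.congr_fun (RingHom.ext_zmod ((σ.comp C).comp C)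
          (((C : PC.KP p →+* GG p).comp (PC.sh p : PC.KP p →+* PC.KP p)).comp C)) c
      · change σ (C (X y)) = C (PC.sh p (X y))
        rw [← hρ.t, ← hc.σ, PC.sh, rename_X, ← hρ.t]
        simp only [shift, coe_eval₂Hom, eval₂_X]
    exact RingHom.congr_fun key k
  · rw [← hρ.v i, ← hc.d, ← algebraMap_eq, AlgHom.commutes]

end Vale.Agent.P257L
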