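import Vale.Agent.P257.Q.PDefs

/-! The filtration argument: from `Ext_P(F_p, F_p)` to `Ext(BP_*, BP_*/I_4)`. -/

namespace Vale.Agent.P257L

open MvPolynomial Finset Vale.Agent.P257.Q

section Filt

variable {S : Type*} [CommRing S] (c : ℕ → ℕ)

/-- The rank of a monomial. -/
def rk (α : ℕ →₀ ℕ) : ℕ := α.sum fun i m => m * c i

theorem rk_zero : rk c 0 = 0 := by simp [rk]

theorem rk_add (α β : ℕ →₀ ℕ) : rk c (α + β) = rk c α + rk c β := by
  unfold rk
  exact Finsupp.sum_add_index' (fun _ => by simp) fun _ _ _ => by ring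

theorem rk_single (i : ℕ) : rk c (Finsupp.single i 1) = c i := by
  simp [rk]

theorem exists_of_coeff_mul_ne {g h : MvPolynomial ℕ S} {α : ℕ →₀ ℕ} (H : coeff α (g * h) ≠ 0) :
    ∃ β γ, β + γ = α ∧ coeff β g ≠ 0 ∧ coeff γ h ≠ 0 := by
  rw [coeff_mul] at H
  obtain ⟨x, hx, hne⟩ := Finset.exists_ne_zero_of_sum_ne_zero H
  exact ⟨x.1, x.2, by simpa using hx, left_ne_zero_of_mul hne, right_ne_zero_of_mul hne⟩

/-- The filtration. -/
def Fil (j : ℕ) : Ideal (MvPolynomial ℕ S) where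
  carrier := {g | ∀ α, coeff α g ≠ 0 → j ≤ rk c α}
  add_mem' := by
    intro g h hg hh α hα
    rw [coeff_add] at hα
    by_cases h1 : coeff α g = 0
    · exact hh α fun h2 => hα (by rw [h1, h2, add_zero])
    · exact hg α h1
  zero_mem' := by
    intro α hα
    simp at hα
  smul_mem' := by
    intro g h hh α hα
    rw [smul_eq_mul] at hα
    obtain ⟨β, γ, rfl, -, h2⟩ := exists_of_coeff_mul_ne hα
    rw [rk_add]
    have := hh γ h2
    omega

variable {c}

theorem mem_Fil {j : ℕ} {g : MvPolynomial ℕ S} :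
    g ∈ Fil c j ↔ ∀ α, coeff α g ≠ 0 → j ≤ rk c α := Iff.rfl

theorem coeff_Fil {j : ℕ} {g : MvPolynomial ℕ S} (hg : g ∈ Fil c j) {α : ℕ →₀ ℕ}
    (hα : rk c α < j) : coeff α g = 0 := by
  by_contra h
  have := hg α h
  omega

theorem Fil_mono {i j : ℕ} (h : i ≤ j) : Fil (S := S) c j ≤ Fil c i :=
  fun _ hg α hα => h.trans (hg α hα)

theorem mem_Fil_zero (g : MvPolynomial ℕ S) : g ∈ Fil c 0 := fun _ _ => Nat.zero_le _

theorem mul_mem_Fil {i j : ℕ} {g h : MvPolynomial ℕ S} (hg : g ∈ Fil c i) (hh : h ∈ Fil c j) :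
    g * h ∈ Fil c (i + j) := by
  intro α hα
  obtain ⟨β, γ, rfl, h1, h2⟩ := exists_of_coeff_mul_ne hα
  rw [rk_add]
  have := hg β h1
  have := hh γ h2
  omega

theorem monomial_mem_Fil (α : ℕ →₀ ℕ) (k : S) : monomial α k ∈ Fil c (rk c α) := by
  intro β hβ
  rw [coeff_monomial] at hβ
  split_ifs at hβ with h
  · rw [h]
  · exact absurd rfl hβ

theorem X_mem_Fil (i : ℕ) : (X i : MvPolynomial ℕ S) ∈ Fil c (c i) := by
  have := monomial_mem_Fil (c := c) (Finsupp.single i 1) (1 : S)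
  rwa [rk_single] at this

/-- `a = a'` up to higher rank, and `a'` is of rank at least `r`. -/
def Cg (c : ℕ → ℕ) (r : ℕ) (a a' : MvPolynomial ℕ S) : Prop := a - a' ∈ Fil c (r + 1) ∧ a' ∈ Fil c r

theorem Cg.mul {r s : ℕ} {a a' b b' : MvPolynomial ℕ S} (h : Cg c r a a') (h' : Cg c s b b') :
    Cg c (r + s) (a * b) (a' * b') := by
  have hb : b ∈ Fil c s := by
    have := add_mem (Fil_mono (Nat.le_succ s) h'.1) h'.2
    simpa using this
  refine ⟨?_, mul_mem_Fil h.2 h'.2⟩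
  have e : a * b - a' * b' = (a - a') * b + a' * (b - b') := by ring
  rw [e]
  refine add_mem ?_ ?_
  · have := mul_mem_Fil h.1 hb
    rwa [show r + 1 + s = r + s + 1 by ring] at this
  · have := mul_mem_Fil h.2 h'.1
    rwa [← add_assoc] at this

theorem Cg.one : Cg c 0 (1 : MvPolynomial ℕ S) 1 :=
  ⟨by simp, mem_Fil_zero _⟩

theorem Cg.pow {r : ℕ} {a a' : MvPolynomial ℕ S} (h : Cg c r a a') (n : ℕ) :
    Cg c (n * r) (a ^ n) (a' ^ n) := by
  induction n with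
  | zero => simpa using Cg.one
  | succ n ih =>
    rw [pow_succ, pow_succ, Nat.succ_mul]
    exact ih.mul h

theorem Cg.prod {ι : Type*} (s : Finset ι) {r : ι → ℕ} {a a' : ι → MvPolynomial ℕ S}
    (h : ∀ i ∈ s, Cg c (r i) (a i) (a' i)) :
    Cg c (∑ i ∈ s, r i) (∏ i ∈ s, a i) (∏ i ∈ s, a' i) := by
  classical
  induction s using Finset.induction_on with
  | empty => simpa using Cg.one
  | insert i s hi ih =>
    rw [Finset.sum_insert hi, Finset.prod_insert hi, Finset.prod_insert hi]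
    exact (h i (Finset.mem_insert_self _ _)).mul (ih fun j hj => h j (Finset.mem_insert_of_mem hj))

/-- The leading term of a ring homomorphism. -/
theorem lead {φ : MvPolynomial ℕ S →+* MvPolynomial ℕ S} {ψ : S →+* S} {good : ℕ → Prop}
    (h1 : ∀ i, good i → φ (X i) - X i ∈ Fil c (c i + 1))
    (h2 : ∀ k, φ (C k) - C (ψ k) ∈ Fil c 1) (k : S) (α : ℕ →₀ ℕ)
    (hα : ∀ i ∈ α.support, good i) :
    φ (monomial α k) - monomial α (ψ k) ∈ Fil c (rk c α + 1) := by
  rw [monomial_eq, monomial_eq, map_mul, Finsupp.prod, map_prod]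
  have e1 : Cg c 0 (φ (C k)) (C (ψ k)) := ⟨h2 k, mem_Fil_zero _⟩
  have e2 := Cg.prod (c := c) α.support (r := fun i => α i * c i) (a := fun i => φ (X i ^ α i))
    (a' := fun i => X i ^ α i) fun i hi => by
      rw [map_pow]
      exact Cg.pow ⟨h1 i (hα i hi), X_mem_Fil i⟩ _
  have := (e1.mul e2).1
  rwa [zero_add] at this

end Filt

/-- `BP_*[t_k^(j)]/I_(n+1)`: the outer variable `i` is `v_(n+1+i)`. -/
abbrev GG (p : ℕ) : Type := MvPolynomial ℕ (PC.KP p)

/-- The degree of a monomial in the `v_(n+1+i)`. -/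
def wv (p n : ℕ) (α : ℕ →₀ ℕ) : ℕ := α.sum fun i m => m * PC.wt p (i + n)

/-- The weights used in degree `N`. -/
def cN (p n N i : ℕ) : ℕ := 2 * (N + 1) - min (PC.wt p (i + n)) (N + 1)

/-- The faces of the cobar complex of `BP_*/I_4` are those of `P` up to higher filtration. -/
structure Faces (p n : ℕ) (σ : GG p →+* GG p) (d : ℕ → GG p →+* GG p) : Prop where
  s1 : ∀ N i, PC.wt p (i + n) ≤ N → σ (X i) - X i ∈ Fil (cN p n N) (cN p n N i + 1)
  s2 : ∀ k, σ (C k) = C (PC.sh p k)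
  d1 : ∀ j i, d j (X i) = X i
  d2 : ∀ N j k, d j (C k) - C (PC.δ p j k) ∈ Fil (cN p n N) 1

/-- The cobar differential. -/
noncomputable def cobG {p : ℕ} (σ : GG p →+* GG p) (d : ℕ → GG p →+* GG p) (s : ℕ) :
    GG p →+ GG p :=
  σ.toAddMonoidHom + ∑ i ∈ range s, (-1 : ℤ) ^ (i + 1) • (d i).toAddMonoidHom +
    (-1 : ℤ) ^ (s + 1) • AddMonoidHom.id _

theorem cobG_apply {p : ℕ} (σ : GG p →+* GG p) (d : ℕ → GG p →+* GG p) (s : ℕ) (g : GG p) :
    cobG σ d s g = σ g + ∑ i ∈ range s, (-1 : ℤ) ^ (i + 1) • d i g + (-1 : ℤ) ^ (s + 1) • g := by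
  simp only [cobG, AddMonoidHom.add_apply, AddMonoidHom.finsetSum_apply, AddMonoidHom.smul_apply]
  rfl

theorem cob_apply (p s : ℕ) (k : PC.KP p) :
    PC.cob p s k = PC.sh p k + ∑ i ∈ range s, (-1 : ℤ) ^ (i + 1) • PC.δ p i k +
      (-1 : ℤ) ^ (s + 1) • k := by
  have e : ∀ (n : ℕ) (x : PC.KP p), (-1 : ZMod p) ^ n • x = (-1 : ℤ) ^ n • x := by
    intro n x
    rcases Nat.even_or_odd n with h | h
    · rw [h.neg_one_pow, h.neg_one_pow, one_smul, one_smul]
    · rw [h.neg_one_pow, h.neg_one_pow, neg_smul, neg_smul, one_smul, one_smul]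
  simp only [PC.cob, LinearMap.add_apply, LinearMap.sum_apply, LinearMap.smul_apply, e]
  rfl

/-- Cochains of degree `(s, N)`. -/
def GC (p n s N : ℕ) : AddSubgroup (GG p) where
  carrier := {g | ∀ α, coeff α g ≠ 0 → wv p n α ≤ N ∧ coeff α g ∈ PC.Ch p s (N - wv p n α)}
  add_mem' := by
    intro g h hg hh α hα
    rw [coeff_add] at hα ⊢
    by_cases h1 : coeff α g = 0
    · rw [h1, zero_add] at hα ⊢
      exact hh α hα
    · by_cases h2 : coeff α h = 0
      · rw [h2, add_zero] at hα ⊢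
        exact hg α hα
      · exact ⟨(hg α h1).1, add_mem (hg α h1).2 (hh α h2).2⟩
  zero_mem' := by
    intro α hα
    simp at hα
  neg_mem' := by
    intro g hg α hα
    rw [coeff_neg] at hα ⊢
    exact ⟨(hg α fun h => hα (by rw [h, neg_zero])).1,
      neg_mem (hg α fun h => hα (by rw [h, neg_zero])).2⟩

theorem mem_GC {p n s N : ℕ} {g : GG p} : g ∈ GC p n s N ↔
    ∀ α, coeff α g ≠ 0 → wv p n α ≤ N ∧ coeff α g ∈ PC.Ch p s (N - wv p n α) := Iff.rfl

theorem coeff_mem_Ch {p n s N : ℕ} {g : GG p} (hg : g ∈ GC p n s N) (α : ℕ →₀ ℕ) :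
    coeff α g ∈ PC.Ch p s (N - wv p n α) := by
  by_cases h : coeff α g = 0
  · rw [h]; exact zero_mem _
  · exact (hg α h).2

theorem wt_pos (p n : ℕ) : 1 ≤ PC.wt p n := by
  unfold PC.wt
  rw [Finset.sum_range_succ']
  simp

theorem wt_le_wv {p n : ℕ} {α : ℕ →₀ ℕ} {i : ℕ} (hi : i ∈ α.support) : PC.wt p (i + n) ≤ wv p n α := by
  unfold wv Finsupp.sum
  refine le_trans ?_ (Finset.single_le_sum (f := fun i => α i * PC.wt p (i + n))
    (fun _ _ => Nat.zero_le _) hi)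
  have : 1 ≤ α i := Nat.one_le_iff_ne_zero.2 (Finsupp.mem_support_iff.1 hi)
  nlinarith

theorem wv_zero (p n : ℕ) : wv p n 0 = 0 := by simp [wv]

theorem rk_le {p n N : ℕ} {α : ℕ →₀ ℕ} (h : wv p n α ≤ N) : rk (cN p n N) α ≤ N * (2 * (N + 1)) := by
  have h1 : rk (cN p n N) α ≤ wv p n α * (2 * (N + 1)) := by
    unfold rk wv Finsupp.sum
    rw [Finset.sum_mul]
    refine Finset.sum_le_sum fun i _ => ?_
    have h2 : cN p n N i ≤ 2 * (N + 1) := Nat.sub_le _ _
    have h3 := wt_pos p (i + n)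
    calc α i * cN p n N i ≤ α i * (2 * (N + 1)) := Nat.mul_le_mul_left _ h2
      _ = α i * 1 * (2 * (N + 1)) := by ring
      _ ≤ α i * PC.wt p (i + n) * (2 * (N + 1)) := by gcongr
  exact h1.trans (Nat.mul_le_mul_right _ h)

theorem rk_pos {p n N : ℕ} {α : ℕ →₀ ℕ} (h : α ≠ 0) : 1 ≤ rk (cN p n N) α := by
  obtain ⟨i, hi⟩ := Finsupp.support_nonempty_iff.2 h
  unfold rk Finsupp.sum
  refine le_trans ?_ (Finset.single_le_sum (f := fun i => α i * cN p n N i)
    (fun _ _ => Nat.zero_le _) hi)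
  have h1 : 1 ≤ α i := Nat.one_le_iff_ne_zero.2 (Finsupp.mem_support_iff.1 hi)
  have h2 : 1 ≤ cN p n N i := by
    unfold cN
    omega
  nlinarith

section

variable {p n : ℕ} {σ : GG p →+* GG p} {d : ℕ → GG p →+* GG p} (H : Faces p n σ d)

include H

theorem lead_monomial (s N : ℕ) {α : ℕ →₀ ℕ} (hα : wv p n α ≤ N) (k : PC.KP p) :
    cobG σ d s (monomial α k) - monomial α (PC.cob p s k) ∈
      Fil (cN p n N) (rk (cN p n N) α + 1) := by
  have good : ∀ i ∈ α.support, PC.wt p (i + n) ≤ N := fun i hi => (wt_le_wv hi).trans hα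
  have h1 : σ (monomial α k) - monomial α (PC.sh p k) ∈ Fil (cN p n N) (rk (cN p n N) α + 1) :=
    lead (ψ := (PC.sh p : PC.KP p →+* PC.KP p)) (good := fun i => PC.wt p (i + n) ≤ N) (H.s1 N)
      (fun k => by rw [H.s2]; simp) k α good
  have h2 : ∀ j, d j (monomial α k) - monomial α (PC.δ p j k) ∈
      Fil (cN p n N) (rk (cN p n N) α + 1) := fun j =>
    lead (ψ := (PC.δ p j : PC.KP p →+* PC.KP p)) (good := fun i => PC.wt p (i + n) ≤ N)
      (fun i _ => by rw [H.d1]; simp) (fun k => H.d2 N j k) k α good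
  rw [cobG_apply, cob_apply, map_add, map_add, map_sum]
  have e : σ (monomial α k) + ∑ i ∈ range s, (-1 : ℤ) ^ (i + 1) • d i (monomial α k) +
      (-1 : ℤ) ^ (s + 1) • monomial α k -
      (monomial α (PC.sh p k) + ∑ i ∈ range s, monomial α ((-1 : ℤ) ^ (i + 1) • PC.δ p i k) +
        monomial α ((-1 : ℤ) ^ (s + 1) • k)) =
      (σ (monomial α k) - monomial α (PC.sh p k)) +
        ∑ i ∈ range s, (-1 : ℤ) ^ (i + 1) • (d i (monomial α k) - monomial α (PC.δ p i k)) := by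
    simp only [smul_sub, Finset.sum_sub_distrib, map_zsmul]
    abel
  rw [e]
  exact add_mem h1 (sum_mem fun i _ => zsmul_mem (h2 i) _)

theorem lead_cob (s N j : ℕ) {g : GG p} (hg : g ∈ GC p n s N) (hj : g ∈ Fil (cN p n N) j)
    {α : ℕ →₀ ℕ} (hα : rk (cN p n N) α ≤ j) :
    coeff α (cobG σ d s g) = PC.cob p s (coeff α g) := by
  classical
  have h1 : ∀ β ∈ g.support, coeff α (cobG σ d s (monomial β (coeff β g))) =
      coeff α (monomial β (PC.cob p s (coeff β g))) := by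
    intro β hβ
    have hβ' : coeff β g ≠ 0 := mem_support_iff.1 hβ
    have h2 := lead_monomial H s N (hg β hβ').1 (coeff β g)
    have h3 := coeff_Fil h2 (α := α) (by have := hj β hβ'; omega)
    rwa [coeff_sub, sub_eq_zero] at h3
  conv_lhs => rw [g.as_sum]
  rw [map_sum, coeff_sum, Finset.sum_congr rfl h1]
  simp only [coeff_monomial]
  rw [Finset.sum_ite_eq' g.support α]
  split_ifs with h
  · rfl
  · rw [notMem_support_iff.1 h, map_zero]

theorem coeff_zero_cob (s N : ℕ) {g : GG p} (hg : g ∈ GC p n s N) :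
    coeff 0 (cobG σ d s g) = PC.cob p s (coeff 0 g) :=
  lead_cob H s N 0 hg (mem_Fil_zero g) (by rw [rk_zero])

omit H in
theorem monomial_mem_GC {s N : ℕ} {α : ℕ →₀ ℕ} (h : wv p n α ≤ N) {k : PC.KP p}
    (hk : k ∈ PC.Ch p s (N - wv p n α)) : monomial α k ∈ GC p n s N := by
  classical
  intro β hβ
  rw [coeff_monomial] at hβ ⊢
  split_ifs at hβ ⊢ with h1
  · subst h1
    exact ⟨h, hk⟩
  · exact absurd rfl hβ

theorem step (s N j : ℕ) {g : GG p} (hg : g ∈ GC p n (s + 1) N) (hj : g ∈ Fil (cN p n N) j)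
    (h0 : cobG σ d (s + 1) g = 0)
    (hvan : ∀ α, rk (cN p n N) α = j → wv p n α ≤ N → PC.Van p (s + 1) (N - wv p n α)) :
    ∃ y ∈ GC p n s N, y ∈ Fil (cN p n N) j ∧ g - cobG σ d s y ∈ Fil (cN p n N) (j + 1) := by
  classical
  have key : ∀ α, rk (cN p n N) α = j → coeff α g ≠ 0 →
      ∃ y ∈ PC.Ch p s (N - wv p n α), PC.cob p s y = coeff α g := by
    intro α hα hne
    have h1 := lead_cob H (s + 1) N j hg hj hα.le
    rw [h0, coeff_zero] at h1
    have h2 : coeff α g ∈ PC.Zc p (s + 1) (N - wv p n α) := ⟨(hg α hne).2, h1.symm⟩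
    exact hvan α hα (hg α hne).1 h2
  choose! y hy1 hy2 using key
  set T := g.support.filter fun α => rk (cN p n N) α = j with hT
  have hTm : ∀ α ∈ T, rk (cN p n N) α = j ∧ coeff α g ≠ 0 := by
    intro α hα
    rw [hT, Finset.mem_filter, mem_support_iff] at hα
    exact ⟨hα.2, hα.1⟩
  have hY : ∑ α ∈ T, monomial α (y α) ∈ GC p n s N := sum_mem fun α hα =>
    monomial_mem_GC (hg α (hTm α hα).2).1 (hy1 α (hTm α hα).1 (hTm α hα).2)
  have hYj : ∑ α ∈ T, monomial α (y α) ∈ Fil (cN p n N) j := sum_mem fun α hα => by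
    have := monomial_mem_Fil (c := cN p n N) α (y α)
    rwa [(hTm α hα).1] at this
  refine ⟨_, hY, hYj, fun α hα => ?_⟩
  by_contra hlt
  apply hα
  rw [coeff_sub, lead_cob H s N j hY hYj (by omega), coeff_sum]
  simp only [coeff_monomial]
  rw [Finset.sum_ite_eq' T α]
  split_ifs with h
  · rw [hy2 α (hTm α h).1 (hTm α h).2, sub_self]
  · rw [map_zero, sub_zero]
    by_contra hne
    have h1 := hj α hne
    exact h (by rw [hT, Finset.mem_filter, mem_support_iff]; exact ⟨hne, by omega⟩)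

omit H in
theorem eq_zero_of_Fil {s N j : ℕ} {g : GG p} (hg : g ∈ GC p n s N) (hj : g ∈ Fil (cN p n N) j)
    (h : N * (2 * (N + 1)) < j) : g = 0 := by
  ext1 α
  by_contra hne
  have h1 := hj α hne
  have h2 := rk_le (hg α hne).1
  omega

variable (hdd : ∀ s N, ∀ g ∈ GC p n s N, cobG σ d s g ∈ GC p n (s + 1) N ∧
  cobG σ d (s + 1) (cobG σ d s g) = 0)

include hdd

theorem van_aux (s N : ℕ)
    (hvan : ∀ α ≠ 0, wv p n α ≤ N → PC.Van p (s + 1) (N - wv p n α)) (l : ℕ) :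
    ∀ j, 1 ≤ j → N * (2 * (N + 1)) < j + l → ∀ g ∈ GC p n (s + 1) N, g ∈ Fil (cN p n N) j →
    cobG σ d (s + 1) g = 0 →
    ∃ y ∈ GC p n s N, y ∈ Fil (cN p n N) j ∧ cobG σ d s y = g := by
  induction l with
  | zero =>
    intro j _ hj g hg hgj _
    exact ⟨0, zero_mem _, zero_mem _, by rw [map_zero, eq_zero_of_Fil hg hgj (by omega)]⟩
  | succ l ih =>
    intro j hj1 hj g hg hgj h0
    obtain ⟨y, hy, hy0, hyj⟩ := step H s N j hg hgj h0 fun α hα hαN => by
      refine hvan α ?_ hαN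
      rintro rfl
      rw [rk_zero] at hα
      omega
    obtain ⟨y', hy', hy0', hyy⟩ := ih (j + 1) (by omega) (by omega) (g - cobG σ d s y)
      (sub_mem hg (hdd s N y hy).1) hyj (by rw [map_sub, h0, (hdd s N y hy).2, sub_zero])
    exact ⟨y + y', add_mem hy hy', add_mem hy0 (Fil_mono (Nat.le_succ j) hy0'),
      by rw [map_add, hyy, add_sub_cancel]⟩

/-- Cocycles without constant term. -/
theorem van_pos (s N : ℕ) (hvan : ∀ α ≠ 0, wv p n α ≤ N → PC.Van p (s + 1) (N - wv p n α)) {g : GG p}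
    (hg : g ∈ GC p n (s + 1) N) (h0 : cobG σ d (s + 1) g = 0) (hg0 : coeff 0 g = 0) :
    ∃ y ∈ GC p n s N, coeff 0 y = 0 ∧ cobG σ d s y = g := by
  obtain ⟨y, hy, hy1, hy2⟩ := van_aux H hdd s N hvan (N * (2 * (N + 1)) + 1) 1 le_rfl (by omega) g
    hg (fun α hα => by refine rk_pos ?_; rintro rfl; exact hα hg0) h0
  exact ⟨y, hy, coeff_Fil hy1 (by rw [rk_zero]; omega), hy2⟩

/-- The reduction to `P` is injective. -/
theorem inj (s N : ℕ) (hvan : ∀ α ≠ 0, wv p n α ≤ N → PC.Van p (s + 1) (N - wv p n α)) {g : GG p}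
    (hg : g ∈ GC p n (s + 1) N) (h0 : cobG σ d (s + 1) g = 0) (hg0 : coeff 0 g ∈ PC.Bc p (s + 1) N) :
    ∃ y ∈ GC p n s N, cobG σ d s y = g := by
  obtain ⟨k, hk, hk'⟩ := hg0
  have hk1 : (C k : GG p) ∈ GC p n s N :=
    monomial_mem_GC (by rw [wv_zero]; omega) (by rw [wv_zero]; exact hk)
  obtain ⟨y, hy, -, hy'⟩ := van_pos H hdd s N hvan (g := g - cobG σ d s (C k))
    (sub_mem hg (hdd s N _ hk1).1) (by rw [map_sub, h0, (hdd s N _ hk1).2, sub_zero])
    (by rw [coeff_sub, coeff_zero_cob H s N hk1, coeff_zero_C, hk', sub_self])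
  exact ⟨C k + y, add_mem hk1 hy, by rw [map_add, hy', add_sub_cancel]⟩

/-- Vanishing. -/
theorem van (s N : ℕ) (hvan : ∀ α ≠ 0, wv p n α ≤ N → PC.Van p (s + 1) (N - wv p n α))
    (hN : PC.Van p (s + 1) N) {g : GG p}
    (hg : g ∈ GC p n (s + 1) N) (h0 : cobG σ d (s + 1) g = 0) :
    ∃ y ∈ GC p n s N, cobG σ d s y = g := by
  refine inj H hdd s N hvan hg h0 (hN ⟨?_, ?_⟩)
  · have := coeff_mem_Ch hg 0
    rwa [wv_zero] at this
  · have := coeff_zero_cob H (s + 1) N hg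
    rw [h0, coeff_zero] at this
    exact this.symm

/-- Lifting of cocycles. -/
theorem exists_lift (s N : ℕ) (hvan : ∀ α ≠ 0, wv p n α ≤ N → PC.Van p (s + 1) (N - wv p n α))
    {k : PC.KP p} (hk : k ∈ PC.Zc p s N) :
    ∃ g ∈ GC p n s N, cobG σ d s g = 0 ∧ coeff 0 g = k := by
  have hk1 : (C k : GG p) ∈ GC p n s N :=
    monomial_mem_GC (by rw [wv_zero]; omega) (by rw [wv_zero]; exact hk.1)
  have h1 := coeff_zero_cob H s N hk1
  rw [coeff_zero_C, show PC.cob p s k = 0 from hk.2] at h1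
  obtain ⟨y, hy, hy0, hy'⟩ := van_pos H hdd s N hvan (hdd s N _ hk1).1 (hdd s N _ hk1).2 h1
  exact ⟨C k - y, sub_mem hk1 hy, by rw [map_sub, hy', sub_self],
    by rw [coeff_sub, hy0, coeff_zero_C, sub_zero]⟩

omit H hdd in
theorem hvan_of {s N : ℕ} (h : ∀ m, m + PC.wt p n ≤ N → PC.Van p s m) :
    ∀ α ≠ 0, wv p n α ≤ N → PC.Van p s (N - wv p n α) := by
  intro α hα0 hα
  refine h _ ?_
  obtain ⟨i, hi⟩ := Finsupp.support_nonempty_iff.2 hα0
  have h1 := wt_le_wv (p := p) (n := n) hi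
  have h2 : PC.wt p n ≤ PC.wt p (i + n) := by
    unfold PC.wt
    exact Finset.sum_le_sum_of_subset (Finset.range_subset_range.2 (by omega))
  omega

end

end Vale.Agent.P257L
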