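import Vale.Agent.P257.L.Faces
import Vale.Agent.P257.Q.Eta

/-! Lifting from `Ext_P(F_p, F_p)` to `Ext(BP_*, BP_*/I_(n+1))`. -/

set_option linter.unusedSectionVars false

namespace Vale.Agent.P257L

open MvPolynomial TensorProduct Finset Vale.Agent.P257.Q Vale.Agent.P257.S

variable {p n : ℕ} [hp : Fact p.Prime] {R : Type} [CommRing R] {B : BPBP p (MvPolynomial ℕ R)}
  {M : ModuleCat.{0} (MvPolynomial ℕ R)} {D : Comod B M} {x : M}
  {r : R →+* ZMod p} {ρ : W (MvPolynomial ℕ R) →+* GG p} {σ : GG p →+* GG p}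
  {d : ℕ → GG p →+* GG p}

/-- All the data of the reduction. -/
structure Lift (p n : ℕ) [Fact p.Prime] {R : Type} [CommRing R] {B : BPBP p (MvPolynomial ℕ R)}
    {M : ModuleCat.{0} (MvPolynomial ℕ R)} (D : Comod B M) (x : M) (r : R →+* ZMod p)
    (ρ : W (MvPolynomial ℕ R) →+* GG p) (σ : GG p →+* GG p) (d : ℕ → GG p →+* GG p) : Prop where
  hR : IsZp p R
  hB : B.v = gen (p : R)
  hρ : Red p n B r ρ
  hc : Comp B ρ σ d
  hx : IsCyclic D (n + 1) 0 x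
  hF : Faces p n σ d
  hdd : ∀ s N, ∀ g ∈ GC p n s N, cobG σ d s g ∈ GC p n (s + 1) N ∧
    cobG σ d (s + 1) (cobG σ d s g) = 0

theorem exists_Lift (hR : IsZp p R) (hB : B.v = gen (p : R)) (hx : IsCyclic D (n + 1) 0 x)
    (hdd : ∀ s t z, IsCobdry D s t z → IsCocycle D s t z) :
    ∃ r ρ σ d, Lift p n D x r ρ σ d := by
  obtain ⟨r, ρ, hρ⟩ := exists_red n hR hB
  obtain ⟨σ, d, hc⟩ := exists_comp hρ hx
  have hE : Eta B := ⟨Vale.Agent.P257.Q.Eta.delta_mem hB hR.reg,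
    Vale.Agent.P257.Q.Eta.eta_v_mem hB hR.reg⟩
  exact ⟨r, ρ, σ, d, hR, hB, hρ, hc, hx, faces hρ hc hE, dd_GG hR hB hρ hc hx hdd⟩

namespace Lift

variable (L : Lift p n D x r ρ σ d)

include L

theorem cocycle_iff {s N : ℕ} (w : W (MvPolynomial ℕ R)) :
    IsCocycle D s (qd p N) (w ⊗ₜ x) ↔ ρ w ∈ GC p n s N ∧ cobG σ d s (ρ w) = 0 :=
  isCocycle_iff L.hR L.hB L.hρ L.hc L.hx w

theorem cobdry_iff {s N : ℕ} (w : W (MvPolynomial ℕ R)) :
    IsCobdry D (s + 1) (qd p N) (w ⊗ₜ x) ↔ ∃ y ∈ GC p n s N, cobG σ d s y = ρ w :=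
  isCobdry_iff L.hR L.hB L.hρ L.hc L.hx w

/-- Reduction of cocycles. -/
theorem coeff_cocycle {s N : ℕ} {w : W (MvPolynomial ℕ R)}
    (h : IsCocycle D s (qd p N) (w ⊗ₜ x)) : coeff 0 (ρ w) ∈ PC.Zc p s N := by
  obtain ⟨h1, h2⟩ := (L.cocycle_iff w).1 h
  refine ⟨?_, ?_⟩
  · have := coeff_mem_Ch h1 0
    rwa [wv_zero] at this
  · have := coeff_zero_cob L.hF s N h1
    rw [h2, coeff_zero] at this
    exact this.symm

/-- Reduction of coboundaries. -/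
theorem coeff_cobdry {s N : ℕ} {w : W (MvPolynomial ℕ R)}
    (h : IsCobdry D (s + 1) (qd p N) (w ⊗ₜ x)) : coeff 0 (ρ w) ∈ PC.Bc p (s + 1) N := by
  obtain ⟨y, h1, h2⟩ := (L.cobdry_iff w).1 h
  refine ⟨coeff 0 y, ?_, ?_⟩
  · have := coeff_mem_Ch h1 0
    rwa [wv_zero] at this
  · rw [← h2]
    exact (coeff_zero_cob L.hF s N h1).symm

/-- The reduction is injective. -/
theorem cobdry_of_coeff {s N : ℕ}
    (hvan : ∀ α ≠ 0, wv p n α ≤ N → PC.Van p (s + 1) (N - wv p n α))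
    {w : W (MvPolynomial ℕ R)} (h : IsCocycle D (s + 1) (qd p N) (w ⊗ₜ x))
    (h0 : coeff 0 (ρ w) ∈ PC.Bc p (s + 1) N) : IsCobdry D (s + 1) (qd p N) (w ⊗ₜ x) := by
  obtain ⟨h1, h2⟩ := (L.cocycle_iff w).1 h
  obtain ⟨y, hy, hy'⟩ := inj L.hF L.hdd s N hvan h1 h2 h0
  exact (L.cobdry_iff w).2 ⟨y, hy, hy'⟩

/-- Lifting of cocycles. -/
theorem lift_cocycle {s N : ℕ}
    (hvan : ∀ α ≠ 0, wv p n α ≤ N → PC.Van p (s + 1) (N - wv p n α)) {k : PC.KP p}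
    (hk : k ∈ PC.Zc p s N) :
    ∃ w : W (MvPolynomial ℕ R), IsCocycle D s (qd p N) (w ⊗ₜ x) ∧ coeff 0 (ρ w) = k := by
  obtain ⟨g, h1, h2, h3⟩ := exists_lift L.hF L.hdd s N hvan hk
  obtain ⟨w, rfl⟩ := L.hρ.surj g
  exact ⟨w, (L.cocycle_iff w).2 ⟨h1, h2⟩, h3⟩

/-- Vanishing. -/
theorem vanL {s N : ℕ} (hvan : ∀ α, wv p n α ≤ N → PC.Van p (s + 1) (N - wv p n α)) :
    VanL D (s + 1) (qd p N) := by
  intro z hz
  obtain ⟨w, rfl⟩ := exists_tmul L.hx z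
  refine L.cobdry_of_coeff (fun α _ => hvan α) hz ?_
  have h1 := hvan 0 (by rw [wv_zero]; omega)
  rw [wv_zero] at h1
  exact h1 (L.coeff_cocycle hz)

theorem coeff_σ (g : GG p) : coeff 0 (σ g) = PC.sh p (coeff 0 g) := by
  have key : (constantCoeff : GG p →+* PC.KP p).comp σ =
      (PC.sh p : PC.KP p →+* PC.KP p).comp constantCoeff := by
    refine ringHom_ext (fun k => ?_) fun i => ?_
    · rw [RingHom.comp_apply, L.hF.s2, constantCoeff_C, RingHom.comp_apply, constantCoeff_C]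
      rfl
    · have h1 := coeff_Fil (L.hF.s1 (PC.wt p (i + n)) i le_rfl) (α := 0)
        (by rw [rk_zero]; omega)
      rw [coeff_sub, ← constantCoeff_eq, constantCoeff_X, sub_zero] at h1
      rw [RingHom.comp_apply, h1, RingHom.comp_apply, constantCoeff_X, map_zero]
  exact RingHom.congr_fun key g

theorem ρ_b₁ : ρ (b₁ p (MvPolynomial ℕ R)) = C (PC.b10 p) := by
  rw [b₁, PC.b10, map_sum, map_sum]
  refine Finset.sum_congr rfl fun i _ => ?_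
  rw [map_mul, map_mul, map_natCast, map_pow, map_pow, L.hρ.t, L.hρ.t, map_mul, map_mul,
    map_natCast, map_pow, map_pow]

theorem coeff_mulB (k : ℕ) : ∀ w : W (MvPolynomial ℕ R), coeff 0 (ρ ((mulB B)^[k] w)) =
    (PC.mulb p)^[k] (coeff 0 (ρ w)) := by
  induction k with
  | zero => intro w; rfl
  | succ k ih =>
    intro w
    rw [Function.iterate_succ_apply', Function.iterate_succ_apply', ← ih, mulB, PC.mulb, map_mul,
      L.ρ_b₁, L.hc.σ, L.hc.σ, ← constantCoeff_eq, map_mul, constantCoeff_C, constantCoeff_eq,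
      L.coeff_σ, L.coeff_σ]

end Lift

/-- Vanishing over `BP_*/I_(n+1)` from vanishing over `P`. -/
theorem vanL_general (hR : IsZp p R) (hB : B.v = gen (p : R)) (hx : IsCyclic D (n + 1) 0 x)
    (hdd : ∀ s t z, IsCobdry D s t z → IsCocycle D s t z) {s N : ℕ}
    (hvan : ∀ α, wv p n α ≤ N → PC.Van p (s + 1) (N - wv p n α)) :
    VanL D (s + 1) (qd p N) := by
  obtain ⟨r, ρ, σ, d, L⟩ := exists_Lift hR hB hx hdd
  exact L.vanL hvan

end Vale.Agent.P257L
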