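import Vale.Agent.P257.L.Ring

/-! The complex `W ⊗ BP_*/I_(n+1)` and its model `GG p`. -/

set_option linter.unusedSectionVars false

namespace Vale.Agent.P257L

open MvPolynomial TensorProduct Finset Vale.Agent.P257.Q Vale.Agent.P257.S

variable {p n : ℕ} [hp : Fact p.Prime] {R : Type} [CommRing R] {B : BPBP p (MvPolynomial ℕ R)}
  {M : ModuleCat.{0} (MvPolynomial ℕ R)} {D : Comod B M} {x : M}
  {r : R →+* ZMod p} {ρ : W (MvPolynomial ℕ R) →+* GG p}

omit hp in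
theorem exists_tmul (hx : IsCyclic D (n + 1) 0 x) (z : W (MvPolynomial ℕ R) ⊗[MvPolynomial ℕ R] M) :
    ∃ w : W (MvPolynomial ℕ R), z = w ⊗ₜ x := by
  induction z using TensorProduct.induction_on with
  | zero => exact ⟨0, (zero_tmul _ _).symm⟩
  | tmul w m =>
    obtain ⟨a, rfl⟩ := hx.2.2.1 m
    exact ⟨a • w, (smul_tmul a w x).symm⟩
  | add z z' h h' =>
    obtain ⟨w, rfl⟩ := h
    obtain ⟨w', rfl⟩ := h'
    exact ⟨w + w', (add_tmul _ _ _).symm⟩

omit hp in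
theorem ρ_smul (a : MvPolynomial ℕ R) (w : W (MvPolynomial ℕ R)) : ρ (a • w) = ρ (C a) * ρ w := by
  rw [smul_eq_C_mul, map_mul]

theorem ρ_In (hρ : Red p n B r ρ) {a : MvPolynomial ℕ R} (ha : a ∈ In n B.v) : ρ (C a) = 0 := by
  have : In n B.v ≤ RingHom.ker (ρ.comp C) := by
    unfold In
    rw [Ideal.span_le]
    rintro b ⟨i, hi, rfl⟩
    exact hρ.low i hi
  exact this ha

theorem ρ_eq_of_smul (hρ : Red p n B r ρ) (hx : IsCyclic D (n + 1) 0 x) {a b : MvPolynomial ℕ R}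
    (h : a • x = b • x) : ρ (C a) = ρ (C b) := by
  have h1 : (a - b) • x = 0 := by rw [sub_smul, h, sub_self]
  have h2 := ρ_In hρ ((hx.2.2.2 _).1 h1)
  rwa [map_sub, map_sub, sub_eq_zero] at h2

theorem tmul_eq_zero (hρ : Red p n B r ρ) (hx : IsCyclic D (n + 1) 0 x) (w : W (MvPolynomial ℕ R)) :
    w ⊗ₜ[MvPolynomial ℕ R] x = 0 ↔ ρ w = 0 := by
  constructor
  · intro h
    choose f hf using hx.2.2.1
    let θ : M →+ GG p := AddMonoidHom.mk' (fun m => ρ (C (f m))) fun m m' => by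
      rw [← map_add, ← map_add]
      exact ρ_eq_of_smul hρ hx (by rw [← hf, add_smul, ← hf, ← hf])
    have hθ : ∀ (a : MvPolynomial ℕ R) m, θ (a • m) = ρ (C a) * θ m := fun a m => by
      change ρ (C (f (a • m))) = ρ (C a) * ρ (C (f m))
      rw [← map_mul, ← map_mul]
      exact ρ_eq_of_smul hρ hx (by rw [← hf, mul_smul, ← hf])
    have hθx : θ x = 1 := by
      change ρ (C (f x)) = 1
      rw [← map_one ρ, ← map_one C]
      exact ρ_eq_of_smul hρ hx (by rw [← hf, one_smul])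
    let Φ : W (MvPolynomial ℕ R) ⊗[MvPolynomial ℕ R] M →+ GG p :=
      liftAddHom (AddMonoidHom.mk' (fun w => (AddMonoidHom.mulLeft (ρ w)).comp θ)
        fun w w' => by ext m; simp [add_mul]) fun a w m => by
          change ρ (a • w) * θ m = ρ w * θ (a • m)
          rw [ρ_smul, hθ]
          ring
    have h1 : Φ (w ⊗ₜ x) = ρ w * θ x := rfl
    rw [h, map_zero, hθx, mul_one] at h1
    exact h1.symm
  · intro h
    rw [w.as_sum, sum_tmul]
    refine Finset.sum_eq_zero fun m _ => ?_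
    have h1 : (monomial m (coeff m w) : W (MvPolynomial ℕ R)) = coeff m w • monomial m 1 := by
      rw [smul_monomial, smul_eq_mul, mul_one]
    rw [h1, smul_tmul, (hx.2.2.2 _).2 (hρ.ker w h m), tmul_zero]

theorem tmul_eq (hρ : Red p n B r ρ) (hx : IsCyclic D (n + 1) 0 x) (w w' : W (MvPolynomial ℕ R)) :
    w ⊗ₜ[MvPolynomial ℕ R] x = w' ⊗ₜ[MvPolynomial ℕ R] x ↔ ρ w = ρ w' := by
  rw [← sub_eq_zero, ← sub_tmul, tmul_eq_zero hρ hx, map_sub, sub_eq_zero]

theorem shiftM_tmul (hx : IsCyclic D (n + 1) 0 x) (w : W (MvPolynomial ℕ R)) :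
    shiftM D (w ⊗ₜ x) = shift B w ⊗ₜ x := by
  change shift B w • LinearMap.rTensor M
    (rename (R := MvPolynomial ℕ R) fun n => ((0 : ℕ), n)).toLinearMap (D.ψ x) = _
  rw [hx.2.1, LinearMap.rTensor_tmul, smul_tmul', AlgHom.toLinearMap_apply, map_one, smul_eq_mul,
    mul_one]

/-- The cobar differential in `W`. -/
noncomputable def cobW (B : BPBP p (MvPolynomial ℕ R)) (s : ℕ) (w : W (MvPolynomial ℕ R)) :
    W (MvPolynomial ℕ R) :=
  shift B w + ∑ i ∈ range s, (-1 : ℤ) ^ (i + 1) • face B i w + (-1 : ℤ) ^ (s + 1) • w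

theorem zsmul_tmul (k : ℤ) (w : W (MvPolynomial ℕ R)) :
    (k • w) ⊗ₜ[MvPolynomial ℕ R] x = k • (w ⊗ₜ x) :=
  map_zsmul (TensorProduct.mk (MvPolynomial ℕ R) (W (MvPolynomial ℕ R)) M |>.flip x).toAddMonoidHom k w

theorem cobar_tmul (hx : IsCyclic D (n + 1) 0 x) (s : ℕ) (w : W (MvPolynomial ℕ R)) :
    cobar D s (w ⊗ₜ x) = cobW B s w ⊗ₜ x := by
  unfold cobar cobW
  rw [shiftM_tmul hx, add_tmul, add_tmul, sum_tmul, zsmul_tmul]
  congr 2

/-- The reduction is compatible with the faces. -/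
structure Comp (B : BPBP p (MvPolynomial ℕ R)) (ρ : W (MvPolynomial ℕ R) →+* GG p)
    (σ : GG p →+* GG p) (d : ℕ → GG p →+* GG p) : Prop where
  σ : ∀ w, ρ (shift B w) = σ (ρ w)
  d : ∀ i w, ρ (face B i w) = d i (ρ w)

theorem exists_comp (hρ : Red p n B r ρ) (hx : IsCyclic D (n + 1) 0 x) :
    ∃ (σ : GG p →+* GG p) (d : ℕ → GG p →+* GG p), Comp B ρ σ d := by
  have h1 : RingHom.ker ρ ≤ RingHom.ker (ρ.comp (shift B)) := by
    intro w hw
    rw [RingHom.mem_ker] at hw ⊢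
    rw [RingHom.comp_apply, ← tmul_eq_zero hρ hx, ← shiftM_tmul hx, (tmul_eq_zero hρ hx w).2 hw,
      map_zero]
  have h2 : ∀ i, RingHom.ker ρ ≤ RingHom.ker (ρ.comp (face B i : _ →+* _)) := by
    intro i w hw
    rw [RingHom.mem_ker] at hw ⊢
    rw [RingHom.comp_apply, ← tmul_eq_zero hρ hx]
    have h3 : LinearMap.rTensor M (face B i).toLinearMap (w ⊗ₜ[MvPolynomial ℕ R] x) =
      face B i w ⊗ₜ[MvPolynomial ℕ R] x := LinearMap.rTensor_tmul _ _ _ _
    rw [(tmul_eq_zero hρ hx w).2 hw, map_zero] at h3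
    exact h3.symm
  refine ⟨ρ.liftOfSurjective hρ.surj ⟨_, h1⟩, fun i => ρ.liftOfSurjective hρ.surj ⟨_, h2 i⟩,
    fun w => ?_, fun i w => ?_⟩
  · rw [RingHom.liftOfSurjective_comp_apply]
    rfl
  · rw [RingHom.liftOfSurjective_comp_apply]
    rfl

theorem ρ_cobW {σ : GG p →+* GG p} {d : ℕ → GG p →+* GG p} (hc : Comp B ρ σ d) (s : ℕ)
    (w : W (MvPolynomial ℕ R)) : ρ (cobW B s w) = cobG σ d s (ρ w) := by
  rw [cobG_apply, cobW, map_add, map_add, map_sum, hc.σ, map_zsmul]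
  congr 2
  refine Finset.sum_congr rfl fun i _ => ?_
  rw [map_zsmul, hc.d]

end Vale.Agent.P257L
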