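import Vale.Agent.P257.L.Filt
import Vale.Agent.P257.Q.Facts
import Vale.Agent.P257.Bdl.B1

/-! The reduction `BP_*[t_k^(j)] → BP_*[t_k^(j)]/I_(n+1)`. -/

namespace Vale.Agent.P257L

open MvPolynomial Finset Vale.Agent.P257.Q Vale.Agent.P257.S

variable {p : ℕ} [hp : Fact p.Prime] {R : Type} [CommRing R]

omit hp in
theorem dvd_of_mem (hR : IsZp p R) {n : ℤ} {r : R} (h : (n : R) = p * r) : (p : ℤ) ∣ n := by
  obtain ⟨a, b, hb, hab⟩ := hR.frac r
  have h1 : ((b * n - p * a : ℤ) : R) = 0 := by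
    push_cast
    rw [h, ← hab]
    ring
  have h2 := hR.tf _ h1
  have h3 : (p : ℤ) ∣ b * n := ⟨a, by linarith⟩
  have h4 : IsCoprime (p : ℤ) (b : ℤ) := Nat.isCoprime_iff_coprime.2 hb.symm
  exact h4.dvd_of_dvd_mul_left h3

/-- The residue field. -/
theorem exists_residue (hR : IsZp p R) : ∃ r : R →+* ZMod p, Function.Surjective r ∧
    ∀ x, r x = 0 → ∃ y, x = p * y := by
  set I : Ideal R := Ideal.span {(p : R)} with hI
  have hmem : ∀ n : ℤ, (n : R) ∈ I → (p : ℤ) ∣ n := by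
    intro n hn
    rw [hI, Ideal.mem_span_singleton] at hn
    obtain ⟨r, hr⟩ := hn
    exact dvd_of_mem hR hr
  have hchar : CharP (R ⧸ I) p := by
    refine ⟨fun n => ?_⟩
    rw [← map_natCast (Ideal.Quotient.mk I), Ideal.Quotient.eq_zero_iff_mem]
    constructor
    · intro h
      have := hmem n (by simpa using h)
      exact Int.natCast_dvd_natCast.1 this
    · rintro ⟨m, rfl⟩
      rw [hI, Ideal.mem_span_singleton]
      exact ⟨m, by push_cast; ring⟩
  have hnt : Nontrivial (R ⧸ I) := by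
    rw [Ideal.Quotient.nontrivial_iff]
    intro h
    have := hmem 1 (by rw [h]; trivial)
    have h2 : (p : ℤ) = 1 ∨ (p : ℤ) = -1 := Int.isUnit_iff.1 (isUnit_of_dvd_one this)
    have := hp.out.one_lt
    omega
  set e : ZMod p →+* R ⧸ I := ZMod.castHom (dvd_refl p) (R ⧸ I) with he
  have hinj : Function.Injective e := e.injective
  have hsurj : Function.Surjective e := by
    intro y
    obtain ⟨r, rfl⟩ := Ideal.Quotient.mk_surjective y
    obtain ⟨a, b, hb, hab⟩ := hR.frac r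
    have h1 := congrArg (Ideal.Quotient.mk I) hab
    rw [map_mul, map_natCast, map_intCast] at h1
    refine ⟨((b : ZMod p)⁻¹) * (a : ZMod p), ?_⟩
    rw [map_mul, map_intCast, ← h1, ← mul_assoc, ← map_natCast e b, ← map_mul,
      inv_mul_cancel₀, map_one, one_mul]
    intro h0
    rw [ZMod.natCast_eq_zero_iff] at h0
    have := Nat.Coprime.eq_one_of_dvd hb.symm h0
    exact hp.out.one_lt.ne' this
  refine ⟨((RingEquiv.ofBijective e ⟨hinj, hsurj⟩).symm : (R ⧸ I) →+* ZMod p).comp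
    (Ideal.Quotient.mk I), ?_, ?_⟩
  · exact (RingEquiv.ofBijective e ⟨hinj, hsurj⟩).symm.surjective.comp
      Ideal.Quotient.mk_surjective
  · intro x hx
    have h1 : Ideal.Quotient.mk I x = 0 := by
      have : (RingEquiv.ofBijective e ⟨hinj, hsurj⟩).symm (Ideal.Quotient.mk I x) = 0 := hx
      rwa [EmbeddingLike.map_eq_zero_iff] at this
    rw [Ideal.Quotient.eq_zero_iff_mem, hI, Ideal.mem_span_singleton] at h1
    exact h1

/-- `I_(n+1)`. -/
noncomputable def In (n : ℕ) (v : ℕ → MvPolynomial ℕ R) : Ideal (MvPolynomial ℕ R) :=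
  Ideal.span {b | ∃ i < n + 1, b = v i}

/-- The properties of the reduction. -/
structure Red (p n : ℕ) (B : BPBP p (MvPolynomial ℕ R)) (r : R →+* ZMod p)
    (ρ : W (MvPolynomial ℕ R) →+* GG p) : Prop where
  surj : Function.Surjective ρ
  t : ∀ x, ρ (X x) = C (X x)
  low : ∀ i < n + 1, ρ (C (B.v i)) = 0
  v : ∀ i, ρ (C (B.v (n + 1 + i))) = X i
  const : ∀ c, ρ (C (C c)) = C (C (r c))
  ker : ∀ w, ρ w = 0 → ∀ m, coeff m w ∈ In n B.v

theorem exists_red (n : ℕ) (hR : IsZp p R) {B : BPBP p (MvPolynomial ℕ R)} (hB : B.v = gen (p : R)) :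
    ∃ (r : R →+* ZMod p) (ρ : W (MvPolynomial ℕ R) →+* GG p), Red p n B r ρ := by
  obtain ⟨r, hr, hker⟩ := exists_residue hR
  set ρ₁ : MvPolynomial ℕ R →+* MvPolynomial ℕ (ZMod p) :=
    eval₂Hom ((C : ZMod p →+* MvPolynomial ℕ (ZMod p)).comp r) (fun i => if i < n then 0 else X (i - n))
    with hρ₁
  have h1C : ∀ c, ρ₁ (C c) = C (r c) := fun c => by rw [hρ₁]; simp
  have h1X : ∀ i, ρ₁ (X i) = if i < n then 0 else X (i - n) := fun i => by rw [hρ₁]; simp
  have hrp : r p = 0 := by rw [map_natCast, ZMod.natCast_self]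
  have hlow : ∀ i < n + 1, ρ₁ (B.v i) = 0 := by
    intro i hi
    rw [hB]
    cases i with
    | zero => rw [gen_zero, h1C, hrp, map_zero]
    | succ i => rw [gen_succ, h1X, if_pos (by omega)]
  have hsurj : Function.Surjective ρ₁ := by
    intro f
    induction f using MvPolynomial.induction_on with
    | C a =>
      obtain ⟨c, rfl⟩ := hr a
      exact ⟨C c, h1C c⟩
    | add f g hf hg =>
      obtain ⟨a, rfl⟩ := hf
      obtain ⟨b, rfl⟩ := hg
      exact ⟨a + b, map_add _ _ _⟩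
    | mul_X f i hf =>
      obtain ⟨a, rfl⟩ := hf
      refine ⟨a * X (i + n), ?_⟩
      rw [map_mul, h1X, if_neg (by omega), Nat.add_sub_cancel]
  have hI : ∀ i < n + 1, Ideal.Quotient.mk (In n B.v) (B.v i) = 0 := fun i hi => by
    rw [Ideal.Quotient.eq_zero_iff_mem]
    exact Ideal.subset_span ⟨i, hi, rfl⟩
  have hkerle : RingHom.ker r ≤ RingHom.ker ((Ideal.Quotient.mk (In n B.v)).comp C) := by
    intro x hx
    rw [RingHom.mem_ker] at hx ⊢
    obtain ⟨y, rfl⟩ := hker x hx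
    have h0 := hI 0 (by omega)
    rw [hB, gen_zero] at h0
    rw [RingHom.comp_apply, map_mul, map_mul, hB, h0, zero_mul]
  set f : ZMod p →+* MvPolynomial ℕ R ⧸ In n B.v := r.liftOfSurjective hr
    ⟨(Ideal.Quotient.mk (In n B.v)).comp C, hkerle⟩ with hf
  have hfr : ∀ c, f (r c) = Ideal.Quotient.mk (In n B.v) (C c) := fun c => by
    rw [hf, RingHom.liftOfSurjective_comp_apply]
    rfl
  set τ : MvPolynomial ℕ (ZMod p) →+* MvPolynomial ℕ R ⧸ In n B.v :=
    eval₂Hom f fun i => Ideal.Quotient.mk _ (X (i + n)) with hτ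
  have hτρ : τ.comp ρ₁ = Ideal.Quotient.mk (In n B.v) := by
    refine ringHom_ext (fun c => ?_) fun i => ?_
    · rw [RingHom.comp_apply, h1C, hτ, coe_eval₂Hom, eval₂_C, hfr]
    · rw [RingHom.comp_apply, h1X]
      split_ifs with h
      · have h0 := hI (i + 1) (by omega)
        rw [map_zero]
        rw [show B.v (i + 1) = X i by rw [hB, gen_succ]] at h0
        exact h0.symm
      · rw [hτ, coe_eval₂Hom, eval₂_X, Nat.sub_add_cancel (by omega)]
  have hk1 : ∀ a, ρ₁ a = 0 → a ∈ In n B.v := by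
    intro a ha
    rw [← Ideal.Quotient.eq_zero_iff_mem, ← hτρ, RingHom.comp_apply, ha, map_zero]
  refine ⟨r, ((commAlgEquiv (ZMod p) (ℕ × ℕ) ℕ : _ ≃ₐ[ZMod p] GG p) : _ →+* GG p).comp (map ρ₁),
    ?_, ?_, ?_, ?_, ?_, ?_⟩
  · exact (commAlgEquiv (ZMod p) (ℕ × ℕ) ℕ).surjective.comp (map_surjective ρ₁ hsurj)
  · intro x
    rw [RingHom.comp_apply, map_X]
    exact commAlgEquiv_X _
  · intro i hi
    rw [RingHom.comp_apply, map_C, hlow i hi, map_zero, map_zero]
  · intro i
    rw [RingHom.comp_apply, map_C, hB, show n + 1 + i = i + n + 1 by ring, gen_succ, h1X,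
      if_neg (by omega), Nat.add_sub_cancel]
    exact commAlgEquiv_C_X _
  · intro c
    rw [RingHom.comp_apply, map_C, h1C]
    exact (commAlgEquiv (ZMod p) (ℕ × ℕ) ℕ).commutes (r c)
  · intro w hw m
    have h1 : map ρ₁ w = 0 := by
      have : (commAlgEquiv (ZMod p) (ℕ × ℕ) ℕ) (map ρ₁ w) = 0 := hw
      rwa [EmbeddingLike.map_eq_zero_iff] at this
    apply hk1
    rw [← coeff_map, h1, coeff_zero]

end Vale.Agent.P257L
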