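import Vale.Agent.P257.L.Lift
import Vale.Agent.P257.X.TowerOut
import Vale.Agent.P257.N.CountV3
import Vale.Agent.P257.Q.Inst

/-! The vanishing of the obstruction groups for `V(1), V(2), V(3)` and their products. -/

set_option linter.unusedSectionVars false

namespace Vale.Agent.P257L

open MvPolynomial TensorProduct Finset Vale.Agent.P257.Q Vale.Agent.P257.S

variable {p n : ℕ} [hp : Fact p.Prime] {R : Type} [CommRing R] {B : BPBP p (MvPolynomial ℕ R)}
  {M : ModuleCat.{0} (MvPolynomial ℕ R)} {D : Comod B M} {x : M}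

theorem qd_br (i : ℕ) : vdeg p i = qd p (Vale.Agent.P257.N.br p i) := by
  cases i with
  | zero => simp [vdeg, qd, Vale.Agent.P257.N.br]
  | succ i => rw [vdeg_eq]; rfl

omit hp in
theorem cast_mul_q (k : ℕ) : ((k * (2 * (p - 1)) : ℕ) : ℤ) = qd p k := by
  unfold qd
  push_cast
  ring

theorem wv_ge {α : ℕ →₀ ℕ} : wv p n α = 0 ∨ Vale.Agent.P257.N.br p (n + 1) ≤ wv p n α := by
  by_cases h : α = 0
  · left
    rw [h, wv_zero]
  · right
    obtain ⟨i, hi⟩ := Finsupp.support_nonempty_iff.2 h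
    have h1 := wt_le_wv (p := p) (n := n) hi
    have h2 : PC.wt p n ≤ PC.wt p (i + n) := by
      unfold PC.wt
      exact Finset.sum_le_sum_of_subset (Finset.range_subset_range.2 (by omega))
    change PC.wt p n ≤ _
    omega

theorem vanL_of_nm (hR : IsZp p R) (hB : B.v = gen (p : R)) (hx : IsCyclic D (n + 1) 0 x)
    (hdd : ∀ s t z, IsCobdry D s t z → IsCocycle D s t z) {s N : ℕ} (hs : 1 ≤ s)
    (h0 : Vale.Agent.P257.X.NM p s N)
    (h : ∀ N' w, N' + w = N → Vale.Agent.P257.N.br p (n + 1) ≤ w →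
      Vale.Agent.P257.X.NM p s N') : VanL D s (qd p N) := by
  obtain ⟨s, rfl⟩ := Nat.exists_eq_add_of_le' hs
  refine vanL_general hR hB hx hdd fun α hα => ?_
  refine (Vale.Agent.P257.X.towerOut p).van _ _ ?_
  rcases wv_ge (p := p) (n := n) (α := α) with h1 | h1
  · rw [h1, Nat.sub_zero]
    exact h0
  · exact h _ _ (Nat.sub_add_cancel hα) h1

/-- `v_m` is a permanent cycle of `V(m-1)`. -/
theorem van_perm (hp11 : 11 ≤ p) (hR : IsZp p R) (hB : B.v = gen (p : R)) {m : ℕ} (hm1 : 1 ≤ m)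
    (hm : m ≤ 3) (hx : IsCyclic D m 0 x)
    (hdd : ∀ s t z, IsCobdry D s t z → IsCocycle D s t z) {k : ℕ} (hk : 1 ≤ k) :
    VanL D (k * (2 * (p - 1)) + 1) (qd p (Vale.Agent.P257.N.br p m + k)) := by
  obtain ⟨n, rfl⟩ := Nat.exists_eq_add_of_le' hm1
  exact vanL_of_nm hR hB hx hdd (by omega) (Vale.Agent.P257.N.V3_perm hp11 hm hk)
    fun N' w h hw => Vale.Agent.P257.N.V3_perm_mult hp11 hk hw h

/-- The same with arbitrary targets. -/
theorem van_perm' (hp11 : 11 ≤ p) (hR : IsZp p R) (hB : B.v = gen (p : R)) {m : ℕ} (hm1 : 1 ≤ m)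
    (hm : m ≤ 3) (hx : IsCyclic D m 0 x)
    (hdd : ∀ s t z, IsCobdry D s t z → IsCocycle D s t z) {r : ℕ} (hr : 2 ≤ r) :
    VanL D r (vdeg p m + r - 1) := by
  by_cases h : ((2 * (p - 1) : ℕ) : ℤ) ∣ vdeg p m + r - 1
  · rw [qd_br] at h ⊢
    have h1 : ((2 * (p - 1) : ℕ) : ℤ) ∣ ((r - 1 : ℕ) : ℤ) := by
      have h2 : ((2 * (p - 1) : ℕ) : ℤ) ∣ qd p (Vale.Agent.P257.N.br p m) := Dvd.intro _ rfl
      have h3 := dvd_sub h h2
      have e : qd p (Vale.Agent.P257.N.br p m) + (r : ℤ) - 1 - qd p (Vale.Agent.P257.N.br p m) =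
        ((r - 1 : ℕ) : ℤ) := by
        rw [Nat.cast_sub (by omega)]
        push_cast
        ring
      rwa [e] at h3
    obtain ⟨k, hk⟩ := Int.natCast_dvd_natCast.1 h1
    have hk1 : 1 ≤ k := by
      rcases Nat.eq_zero_or_pos k with rfl | h
      · omega
      · exact h
    have e1 : r = k * (2 * (p - 1)) + 1 := by rw [mul_comm k]; omega
    have e2 : qd p (Vale.Agent.P257.N.br p m) + (r : ℤ) - 1 =
        qd p (Vale.Agent.P257.N.br p m + k) := by
      rw [e1, qd_add]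
      unfold qd
      push_cast
      ring
    rw [e2, e1]
    exact van_perm hp11 hR hB hm1 hm hx hdd hk1
  · intro z hz
    left
    exact cochain_sparse hp.out.one_lt.le hR hB hx.1 hx.2.2.1 h hz.1

/-- The obstructions to the product of `V(m)`. -/
theorem van_prod (hp11 : 11 ≤ p) (hR : IsZp p R) (hB : B.v = gen (p : R)) {m j : ℕ} (hm : m ≤ 3)
    (hj : j ≤ m) (hx : IsCyclic D (m + 1) 0 x)
    (hdd : ∀ s t z, IsCobdry D s t z → IsCocycle D s t z) {I J : Finset ℕ} (hI : I ⊆ range j)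
    (hJ : J ⊆ range (m + 1)) {k : ℕ} (hk : 1 ≤ k) :
    VanL D (k * (2 * (p - 1)) - (I.card + J.card)) (qd p (Vale.Agent.P257.N.br p j +
      ∑ i ∈ I, Vale.Agent.P257.N.br p i + ∑ i ∈ J, Vale.Agent.P257.N.br p i + k)) := by
  have h1 : I.card ≤ 3 := by
    have := card_le_card hI
    rw [card_range] at this
    omega
  have h2 : J.card ≤ 4 := by
    have := card_le_card hJ
    rw [card_range] at this
    omega
  have h3 : 1 * (2 * (11 - 1)) ≤ k * (2 * (p - 1)) := Nat.mul_le_mul hk (by omega)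
  exact vanL_of_nm hR hB hx hdd (by omega) (Vale.Agent.P257.N.V3 hp11 hm hj hk hI hJ)
    fun N' w h hw => Vale.Agent.P257.N.V3_mult hp11 hm hj hk hI hJ hw h

/-- `π_d V(m)` is detected by homology in the degrees `d` of the cells of `V(j-1) ∧ V(m)`. -/
theorem van_conv (hp11 : 11 ≤ p) (hR : IsZp p R) (hB : B.v = gen (p : R)) {m j : ℕ} (hm : m ≤ 3)
    (hj : j ≤ m) (hx : IsCyclic D (m + 1) 0 x)
    (hdd : ∀ s t z, IsCobdry D s t z → IsCocycle D s t z) {I J : Finset ℕ} (hI : I ⊆ range j)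
    (hJ : J ⊆ range (m + 1)) {s : ℕ} (hs : 1 ≤ s) :
    VanL D s (vdeg p j + ∑ i ∈ I, (vdeg p i + 1) + ∑ i ∈ J, (vdeg p i + 1) + s) := by
  set N₀ := Vale.Agent.P257.N.br p j + ∑ i ∈ I, Vale.Agent.P257.N.br p i +
    ∑ i ∈ J, Vale.Agent.P257.N.br p i with hN₀
  have e0 : vdeg p j + ∑ i ∈ I, (vdeg p i + 1) + ∑ i ∈ J, (vdeg p i + 1) + s =
      qd p N₀ + ((s + (I.card + J.card) : ℕ) : ℤ) := by
    rw [hN₀, qd_add, qd_add, qd_sum, qd_sum, Finset.sum_add_distrib, Finset.sum_add_distrib]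
    simp only [qd_br, Finset.sum_const, nsmul_eq_mul, mul_one]
    push_cast
    ring
  rw [e0]
  by_cases h : ((2 * (p - 1) : ℕ) : ℤ) ∣ qd p N₀ + ((s + (I.card + J.card) : ℕ) : ℤ)
  · have h1 : ((2 * (p - 1) : ℕ) : ℤ) ∣ ((s + (I.card + J.card) : ℕ) : ℤ) :=
      (dvd_add_right (Dvd.intro _ rfl)).1 h
    obtain ⟨k, hk⟩ := Int.natCast_dvd_natCast.1 h1
    have hk1 : 1 ≤ k := by
      rcases Nat.eq_zero_or_pos k with rfl | h
      · omega
      · exact h
    have e1 : s + (I.card + J.card) = k * (2 * (p - 1)) := by rw [hk, mul_comm]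
    have e2 : qd p N₀ + ((s + (I.card + J.card) : ℕ) : ℤ) = qd p (N₀ + k) := by
      rw [e1, qd_add N₀ k, cast_mul_q]
    have e3 : s = k * (2 * (p - 1)) - (I.card + J.card) := by omega
    rw [e2, e3]
    exact van_prod hp11 hR hB hm hj hx hdd hI hJ hk1
  · intro z hz
    left
    exact cochain_sparse hp.out.one_lt.le hR hB hx.1 hx.2.2.1 h hz.1

end Vale.Agent.P257L
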